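import Mathlib

/-!
# Pencil configurations (gadgets) of weighted affine functionals in the plane

An affine functional `φ = (α, β, κ)` stands for `(P, Q) ↦ α * P + β * Q - κ`; it is
*below* a point when it is positive there.
-/

namespace Vale.Agent.P065

open Finset

/-- Affine functionals `(α, β, κ)`, evaluated as `α * P + β * Q - κ`. -/
abbrev Aff : Type := ℝ × ℝ × ℝ

/-- Evaluation of an affine functional. -/
def ev (φ : Aff) (p : ℝ × ℝ) : ℝ := φ.1 * p.1 + φ.2.1 * p.2 - φ.2.2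

/-- Indicator of positivity. -/
noncomputable def pos01 (x : ℝ) : ℕ := if 0 < x then 1 else 0

/-- The coefficients are positive and their ratio lies in `[1/H, H]`. -/
def InC (H : ℝ) (φ : Aff) : Prop :=
  0 < φ.1 ∧ 0 < φ.2.1 ∧ φ.1 ≤ H * φ.2.1 ∧ φ.2.1 ≤ H * φ.1

lemma ev_add (φ ψ : Aff) (p : ℝ × ℝ) : ev (φ + ψ) p = ev φ p + ev ψ p := by
  simp only [ev, Prod.fst_add, Prod.snd_add]; ring

lemma ev_smul (c : ℝ) (φ : Aff) (p : ℝ × ℝ) : ev (c • φ) p = c * ev φ p := by
  simp only [ev, Prod.smul_fst, Prod.smul_snd, smul_eq_mul]; ring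

lemma ev_const (φ : Aff) (t : ℝ) (p : ℝ × ℝ) :
    ev (φ + (0, 0, t)) p = ev φ p - t := by
  simp only [ev, Prod.fst_add, Prod.snd_add]; ring

lemma pos01_of_same {a b : ℝ} (h : 0 < a * b) : pos01 a = pos01 b := by
  rcases mul_pos_iff.mp h with ⟨ha, hb⟩ | ⟨ha, hb⟩
  · simp [pos01, ha, hb]
  · simp [pos01, not_lt.mpr ha.le, not_lt.mpr hb.le]

lemma pos01_mul {ε : ℝ} (hε : 0 < ε) (a : ℝ) : pos01 (ε * a) = pos01 a := by
  simp [pos01, hε]

lemma pos01_zero : pos01 0 = 0 := by simp [pos01]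

lemma pos01_le_one (a : ℝ) : pos01 a ≤ 1 := by
  unfold pos01; split <;> omega

lemma pos01_of_nonpos {a : ℝ} (h : a ≤ 0) : pos01 a = 0 := by
  simp [pos01, not_lt.mpr h]

lemma pos01_of_pos {a : ℝ} (h : 0 < a) : pos01 a = 1 := by simp [pos01, h]

/-- A gadget: two bundles (indexed by `S`, with functionals `(1,0,off s)` and `(0,1,off s)`),
further functionals indexed by `E`, all with multiplicities `c` and charges `w`, and marked
points indexed by `V`, each a common zero of two chosen functionals. -/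
structure Gad : Type 1 where
  S : Type
  E : Type
  V : Type
  [finS : Fintype S]
  [finE : Fintype E]
  [finV : Fintype V]
  off : S → ℝ
  ext : E → Aff
  cS : S → ℕ
  wS : S → ℕ
  cE : E → ℕ
  wE : E → ℕ
  pt : V → ℝ × ℝ
  la : V → S ⊕ (S ⊕ E)
  lb : V → S ⊕ (S ⊕ E)

attribute [instance] Gad.finS Gad.finE Gad.finV

namespace Gad

variable (C : Gad)

/-- Indices of all functionals. -/
abbrev Ln : Type := C.S ⊕ (C.S ⊕ C.E)

/-- The functional with a given index. -/
def lin : C.Ln → Aff :=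
  Sum.elim (fun s => (1, 0, C.off s)) (Sum.elim (fun s => (0, 1, C.off s)) C.ext)

/-- Multiplicity. -/
def c : C.Ln → ℕ := Sum.elim C.cS (Sum.elim C.cS C.cE)

/-- Charge. -/
def w : C.Ln → ℕ := Sum.elim C.wS (Sum.elim C.wS C.wE)

/-- The pencil functional of a marked point. -/
def pen (v : C.V) : Aff := C.lin (C.la v) + C.lin (C.lb v)

/-- Weighted number of functionals below a marked point. -/
noncomputable def cnt (v : C.V) : ℕ :=
  ∑ l, C.c l * pos01 (ev (C.lin l) (C.pt v))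

/-- Number of pencils below a marked point, plus the charge below it. -/
noncomputable def psi (v : C.V) : ℕ :=
  ∑ u, pos01 (ev (C.pen u) (C.pt v)) + ∑ l, C.w l * pos01 (ev (C.lin l) (C.pt v))

/-- Total multiplicity in one bundle. -/
def NS : ℕ := ∑ s, C.cS s
/-- Total multiplicity of the further functionals. -/
def NE : ℕ := ∑ e, C.cE e
/-- Total charge in one bundle. -/
def WS : ℕ := ∑ s, C.wS s
/-- Total charge of the further functionals. -/
def WE : ℕ := ∑ e, C.wE e
/-- Total multiplicity. -/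
def n : ℕ := ∑ l, C.c l
/-- Total charge. -/
def W : ℕ := ∑ l, C.w l
/-- Number of marked points. -/
def m : ℕ := Fintype.card C.V

lemma n_eq : C.n = 2 * C.NS + C.NE := by
  simp [n, c, NS, NE, Fintype.sum_sum_type]; ring

lemma W_eq : C.W = 2 * C.WS + C.WE := by
  simp [W, w, WS, WE, Fintype.sum_sum_type]; ring

/-- The two-by-two determinant of the linear parts at a marked point. -/
def det (v : C.V) : ℝ :=
  (C.lin (C.la v)).1 * (C.lin (C.lb v)).2.1 - (C.lin (C.la v)).2.1 * (C.lin (C.lb v)).1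

/-- The gadget is exact. -/
structure Ok : Prop where
  za : ∀ v, ev (C.lin (C.la v)) (C.pt v) = 0
  zb : ∀ v, ev (C.lin (C.lb v)) (C.pt v) = 0
  ne : ∀ v, C.la v ≠ C.lb v
  cla : ∀ v, C.c (C.la v) = 1
  clb : ∀ v, C.c (C.lb v) = 1
  nz : ∀ v l, l ≠ C.la v → l ≠ C.lb v → ev (C.lin l) (C.pt v) ≠ 0
  pz : ∀ u v, u ≠ v → ev (C.pen u) (C.pt v) ≠ 0
  det_ne : ∀ v, C.det v ≠ 0
  epos : ∀ e, 0 < (C.ext e).1 ∧ 0 < (C.ext e).2.1
  ppos : ∀ v, 0 < (C.pen v).1 ∧ 0 < (C.pen v).2.1
  cc : ∀ u v, C.cnt u = C.cnt v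
  pc : ∀ u v, C.psi u = C.psi v

/-- Combinations with ratio in `[1/H, H]` of the two functionals at one marked point have a
constant sign at every other marked point. -/
def Sep (H : ℝ) : Prop :=
  ∀ u v, u ≠ v →
    0 < ev (H • C.lin (C.la u) + C.lin (C.lb u)) (C.pt v) * ev (C.pen u) (C.pt v) ∧
    0 < ev (C.lin (C.la u) + H • C.lin (C.lb u)) (C.pt v) * ev (C.pen u) (C.pt v)

/-- All new functionals, and all `[1/H', H']`-combinations at marked points, have coefficient
ratio in `[1/H, H]`. -/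
def Cone (H H' : ℝ) : Prop :=
  (∀ e, InC H (C.ext e)) ∧
  ∀ v, InC H (H' • C.lin (C.la v) + C.lin (C.lb v)) ∧
    InC H (C.lin (C.la v) + H' • C.lin (C.lb v))

variable {C}

lemma Ok.lin_nonneg (h : C.Ok) (l : C.Ln) : 0 ≤ (C.lin l).1 ∧ 0 ≤ (C.lin l).2.1 := by
  rcases l with s | s | e
  · simp [lin]
  · simp [lin]
  · exact ⟨(h.epos e).1.le, (h.epos e).2.le⟩

lemma Ok.pen_self (h : C.Ok) (v : C.V) : ev (C.pen v) (C.pt v) = 0 := by
  simp [pen, ev_add, h.za v, h.zb v]

end Gad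

end Vale.Agent.P065
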