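import Vale.Agent.P065.Basic

/-!
# Composition of gadgets

Every functional of `C` is replaced by a thin bundle and every marked point of `C` by an affine
copy of `G`. Charges are paid out as extra parallel functionals.
-/

namespace Vale.Agent.P065

open Finset Filter Topology

namespace Gad

variable (C G : Gad)

/-- A functional of the copy at `u`, in global coordinates. -/
def push (ε : ℝ) (u : C.V) (φ : Aff) : Aff :=
  φ.1 • C.lin (C.la u) + φ.2.1 • C.lin (C.lb u) + (0, 0, ε * φ.2.2)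

/-- First coordinate of the displacement of the point `g` of the copy at `v`. -/
noncomputable def dx (v : C.V) (g : G.V) : ℝ :=
  ((G.pt g).1 * (C.lin (C.lb v)).2.1 - (G.pt g).2 * (C.lin (C.la v)).2.1) / C.det v

/-- Second coordinate of the displacement of the point `g` of the copy at `v`. -/
noncomputable def dy (v : C.V) (g : G.V) : ℝ :=
  ((G.pt g).2 * (C.lin (C.la v)).1 - (G.pt g).1 * (C.lin (C.lb v)).1) / C.det v

/-- The point of the composed gadget belonging to `(v, g)`. -/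
noncomputable def cpt (ε : ℝ) (v : C.V) (g : G.V) : ℝ × ℝ :=
  ((C.pt v).1 + ε * C.dx G v g, (C.pt v).2 + ε * C.dy G v g)

/-- Bundle index type of the composition. -/
abbrev CS : Type := (C.S × G.S) ⊕ C.S
/-- Index type of the further functionals of the composition. -/
abbrev CE : Type := (C.E × G.S) ⊕ (C.E ⊕ (C.V × G.E))

/-- The member `s` of the bundle replacing `l`. -/
def sub : C.Ln → G.S → C.CS G ⊕ (C.CS G ⊕ C.CE G)
  | Sum.inl a, s => Sum.inl (Sum.inl (a, s))
  | Sum.inr (Sum.inl a), s => Sum.inr (Sum.inl (Sum.inl (a, s)))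
  | Sum.inr (Sum.inr e), s => Sum.inr (Sum.inr (Sum.inl (e, s)))

/-- The parallel functional carrying the charge of `l`. -/
def dum : C.Ln → C.CS G ⊕ (C.CS G ⊕ C.CE G)
  | Sum.inl a => Sum.inl (Sum.inr a)
  | Sum.inr (Sum.inl a) => Sum.inr (Sum.inl (Sum.inr a))
  | Sum.inr (Sum.inr e) => Sum.inr (Sum.inr (Sum.inr (Sum.inl e)))

/-- The functional `e` of the copy at `u`. -/
def newE (u : C.V) (e : G.E) : C.CS G ⊕ (C.CS G ⊕ C.CE G) :=
  Sum.inr (Sum.inr (Sum.inr (Sum.inr (u, e))))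

/-- Index of the functional `l` of the copy at `u`. -/
def gmap (u : C.V) : G.Ln → C.CS G ⊕ (C.CS G ⊕ C.CE G) :=
  Sum.elim (C.sub G (C.la u)) (Sum.elim (C.sub G (C.lb u)) (C.newE G u))

/-- The composition. -/
noncomputable def comp (ε R : ℝ) : Gad where
  S := C.CS G
  E := C.CE G
  V := C.V × G.V
  off := Sum.elim (fun x => C.off x.1 + ε * G.off x.2) (fun a => C.off a + ε * R)
  ext := Sum.elim (fun x => C.ext x.1 + (0, 0, ε * G.off x.2))
    (Sum.elim (fun e => C.ext e + (0, 0, ε * R)) (fun x => C.push ε x.1 (G.ext x.2)))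
  cS := Sum.elim (fun x => C.cS x.1 * G.cS x.2) (fun a => C.wS a * G.NE)
  wS := Sum.elim (fun x => C.cS x.1 * G.wS x.2) (fun a => C.wS a * (G.m + G.WE))
  cE := Sum.elim (fun x => C.cE x.1 * G.cS x.2)
    (Sum.elim (fun e => C.wE e * G.NE) (fun x => G.cE x.2))
  wE := Sum.elim (fun x => C.cE x.1 * G.wS x.2)
    (Sum.elim (fun e => C.wE e * (G.m + G.WE)) (fun x => G.wE x.2))
  pt := fun x => C.cpt G ε x.1 x.2
  la := fun x => C.gmap G x.1 (G.la x.2)
  lb := fun x => C.gmap G x.1 (G.lb x.2)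

variable {C G} {ε R : ℝ}

lemma lin_sub (l : C.Ln) (s : G.S) :
    (C.comp G ε R).lin (C.sub G l s) = C.lin l + (0, 0, ε * G.off s) := by
  rcases l with a | a | e <;> simp [sub, comp, lin]

lemma lin_dum (l : C.Ln) :
    (C.comp G ε R).lin (C.dum G l) = C.lin l + (0, 0, ε * R) := by
  rcases l with a | a | e <;> simp [dum, comp, lin]

lemma lin_newE (u : C.V) (e : G.E) :
    (C.comp G ε R).lin (C.newE G u e) = C.push ε u (G.ext e) := by
  simp [newE, comp, lin]

lemma lin_gmap (u : C.V) (l : G.Ln) :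
    (C.comp G ε R).lin (C.gmap G u l) = C.push ε u (G.lin l) := by
  rcases l with s | s | e
  · simp only [gmap, Sum.elim_inl, lin_sub]; simp [push, lin]
  · simp only [gmap, Sum.elim_inl, Sum.elim_inr, lin_sub]; simp [push, lin]
  · simp only [gmap, Sum.elim_inr, lin_newE]; rfl

lemma c_sub (l : C.Ln) (s : G.S) :
    (C.comp G ε R).c (C.sub G l s) = C.c l * G.cS s := by
  rcases l with a | a | e <;> simp [sub, comp, c]

lemma c_dum (l : C.Ln) : (C.comp G ε R).c (C.dum G l) = C.w l * G.NE := by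
  rcases l with a | a | e <;> simp [dum, comp, c, w]

lemma c_newE (u : C.V) (e : G.E) : (C.comp G ε R).c (C.newE G u e) = G.cE e := by
  simp [newE, comp, c]

lemma w_sub (l : C.Ln) (s : G.S) :
    (C.comp G ε R).w (C.sub G l s) = C.c l * G.wS s := by
  rcases l with a | a | e <;> simp [sub, comp, c, w]

lemma w_dum (l : C.Ln) :
    (C.comp G ε R).w (C.dum G l) = C.w l * (G.m + G.WE) := by
  rcases l with a | a | e <;> simp [dum, comp, w]

lemma w_newE (u : C.V) (e : G.E) : (C.comp G ε R).w (C.newE G u e) = G.wE e := by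
  simp [newE, comp, w]

lemma c_gmap (hC : C.Ok) (u : C.V) (l : G.Ln) :
    (C.comp G ε R).c (C.gmap G u l) = G.c l := by
  rcases l with s | s | e
  · simp only [gmap, Sum.elim_inl, c_sub, hC.cla, one_mul]; rfl
  · simp only [gmap, Sum.elim_inl, Sum.elim_inr, c_sub, hC.clb, one_mul]; rfl
  · simp only [gmap, Sum.elim_inr, c_newE]; rfl

lemma sub_inj {l l' : C.Ln} {s s' : G.S} (h : C.sub G l s = C.sub G l' s') :
    l = l' ∧ s = s' := by
  rcases l with a | a | e <;> rcases l' with a' | a' | e' <;> simp_all [sub]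

lemma gmap_inj (hC : C.Ok) (u : C.V) : Function.Injective (C.gmap G u) := by
  intro l l' h
  rcases l with s | s | e <;> rcases l' with s' | s' | e' <;>
    simp only [gmap, Sum.elim_inl, Sum.elim_inr] at h
  · rw [(sub_inj h).2]
  · exact absurd (sub_inj h).1 (hC.ne u)
  · revert h; rcases C.la u with a | a | e <;> simp [sub, newE]
  · exact absurd (sub_inj h).1.symm (hC.ne u)
  · rw [(sub_inj h).2]
  · revert h; rcases C.lb u with a | a | e <;> simp [sub, newE]
  · revert h; rcases C.la u with a | a | e <;> simp [sub, newE]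
  · revert h; rcases C.lb u with a | a | e <;> simp [sub, newE]
  · simp_all [newE]

lemma ev_push (ε : ℝ) (u : C.V) (φ : Aff) (p : ℝ × ℝ) :
    ev (C.push ε u φ) p
      = φ.1 * ev (C.lin (C.la u)) p + φ.2.1 * ev (C.lin (C.lb u)) p - ε * φ.2.2 := by
  simp [push, ev_add, ev_smul, ev]; ring

lemma push_add (ε : ℝ) (u : C.V) (φ ψ : Aff) :
    C.push ε u (φ + ψ) = C.push ε u φ + C.push ε u ψ := by
  ext <;> simp [push] <;> ring

lemma push_smul (ε : ℝ) (u : C.V) (a : ℝ) (φ : Aff) :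
    C.push ε u (a • φ) = a • C.push ε u φ := by
  ext <;> simp [push] <;> ring

lemma pen_comp (u : C.V) (g : G.V) :
    (C.comp G ε R).pen (u, g) = C.push ε u (G.pen g) := by
  show (C.comp G ε R).lin (C.gmap G u (G.la g)) + (C.comp G ε R).lin (C.gmap G u (G.lb g)) = _
  rw [lin_gmap, lin_gmap, ← push_add]; rfl

lemma ev_cpt (φ : Aff) (ε : ℝ) (v : C.V) (g : G.V) :
    ev φ (C.cpt G ε v g) = ev φ (C.pt v) + ε * (φ.1 * C.dx G v g + φ.2.1 * C.dy G v g) := by
  simp only [cpt, ev]; ring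

lemma ev_la_cpt (hC : C.Ok) (ε : ℝ) (v : C.V) (g : G.V) :
    ev (C.lin (C.la v)) (C.cpt G ε v g) = ε * (G.pt g).1 := by
  have hd := hC.det_ne v
  rw [ev_cpt, hC.za v, zero_add]
  congr 1
  simp only [dx, dy]
  field_simp
  simp only [det]
  ring

lemma ev_lb_cpt (hC : C.Ok) (ε : ℝ) (v : C.V) (g : G.V) :
    ev (C.lin (C.lb v)) (C.cpt G ε v g) = ε * (G.pt g).2 := by
  have hd := hC.det_ne v
  rw [ev_cpt, hC.zb v, zero_add]
  congr 1
  simp only [dx, dy]
  field_simp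
  simp only [det]
  ring

lemma ev_push_cpt (hC : C.Ok) (φ : Aff) (ε : ℝ) (v : C.V) (g : G.V) :
    ev (C.push ε v φ) (C.cpt G ε v g) = ε * ev φ (G.pt g) := by
  rw [ev_push, ev_la_cpt hC, ev_lb_cpt hC]; simp only [ev]; ring

/-- Sign conditions saying that `ε` is small enough. -/
structure Small (C G : Gad) (H' ε R : ℝ) : Prop where
  εpos : 0 < ε
  hs : ∀ v g l, l ≠ C.la v → l ≠ C.lb v → ∀ s : G.S,
    0 < ev (C.lin l + (0, 0, ε * G.off s)) (C.cpt G ε v g) * ev (C.lin l) (C.pt v)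
  hd : ∀ v g l, l ≠ C.la v → l ≠ C.lb v →
    0 < ev (C.lin l + (0, 0, ε * R)) (C.cpt G ε v g) * ev (C.lin l) (C.pt v)
  he : ∀ u v g, u ≠ v → ∀ e : G.E,
    0 < ev (C.push ε u (G.ext e)) (C.cpt G ε v g) * ev (C.pen u) (C.pt v)
  hp : ∀ u v g, u ≠ v → ∀ g' : G.V,
    0 < ev (C.push ε u (G.pen g')) (C.cpt G ε v g) * ev (C.pen u) (C.pt v)
  hc : ∀ u v g, u ≠ v → ∀ g' : G.V,
    0 < ev (C.push ε u (H' • G.lin (G.la g') + G.lin (G.lb g'))) (C.cpt G ε v g)
        * ev (C.pen u) (C.pt v) ∧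
    0 < ev (C.push ε u (G.lin (G.la g') + H' • G.lin (G.lb g'))) (C.cpt G ε v g)
        * ev (C.pen u) (C.pt v)

lemma eventually_sign {a b c : ℝ} (h : 0 < a * c) :
    ∀ᶠ ε in 𝓝[>] (0 : ℝ), 0 < (a + ε * b) * c := by
  have hcont : Continuous (fun ε : ℝ => (a + ε * b) * c) := by fun_prop
  have : ∀ᶠ ε in 𝓝 (0 : ℝ), 0 < (a + ε * b) * c :=
    (hcont.tendsto 0).eventually_const_lt (by simpa using h)
  exact nhdsWithin_le_nhds this

/-- A `[1/H,H]`-combination of the two functionals at `u` has the sign of the pencil of `u`. -/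
lemma sep_cone {H : ℝ} (hH : 1 < H) (hC : C.Sep H) {u v : C.V} (huv : u ≠ v)
    {φ : Aff} (hφ : InC H φ) :
    0 < (φ.1 * ev (C.lin (C.la u)) (C.pt v) + φ.2.1 * ev (C.lin (C.lb u)) (C.pt v))
      * ev (C.pen u) (C.pt v) := by
  obtain ⟨h1, h2⟩ := hC u v huv
  simp only [ev_add, ev_smul] at h1 h2
  obtain ⟨hp1, hp2, hp3, hp4⟩ := hφ
  have hx : 0 ≤ H * φ.1 - φ.2.1 := by linarith
  have hy : 0 ≤ H * φ.2.1 - φ.1 := by linarith
  have hsum : 0 < (H * φ.1 - φ.2.1) + (H * φ.2.1 - φ.1) := by nlinarith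
  have key : 0 < (H * φ.1 - φ.2.1) *
        ((H * ev (C.lin (C.la u)) (C.pt v) + ev (C.lin (C.lb u)) (C.pt v))
          * ev (C.pen u) (C.pt v))
      + (H * φ.2.1 - φ.1) *
        ((ev (C.lin (C.la u)) (C.pt v) + H * ev (C.lin (C.lb u)) (C.pt v))
          * ev (C.pen u) (C.pt v)) := by
    rcases hx.lt_or_eq with hx' | hx'
    · exact add_pos_of_pos_of_nonneg (mul_pos hx' h1) (mul_nonneg hy h2.le)
    · rw [← hx'] at hsum ⊢
      have : 0 < H * φ.2.1 - φ.1 := by linarith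
      simpa using mul_pos this h2
  have hH2 : 0 < H ^ 2 - 1 := by nlinarith
  refine pos_of_mul_pos_right (a := H ^ 2 - 1) ?_ hH2.le
  calc (0 : ℝ) < _ := key
    _ = _ := by ring

lemma small_eventually {H H' : ℝ} (hH : 1 < H) (hH' : 1 ≤ H') (hC : C.Ok) (hCs : C.Sep H)
    (hG : G.Cone H H') :
    ∀ᶠ ε in 𝓝[>] (0 : ℝ), Small C G H' ε R := by
  have hpush : ∀ u v g, u ≠ v → ∀ φ : Aff, InC H φ →
      ∀ᶠ ε in 𝓝[>] (0 : ℝ), 0 < ev (C.push ε u φ) (C.cpt G ε v g) * ev (C.pen u) (C.pt v) := by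
    intro u v g huv φ hφ
    filter_upwards [eventually_sign (b :=
      φ.1 * ((C.lin (C.la u)).1 * C.dx G v g + (C.lin (C.la u)).2.1 * C.dy G v g)
      + φ.2.1 * ((C.lin (C.lb u)).1 * C.dx G v g + (C.lin (C.lb u)).2.1 * C.dy G v g)
      - φ.2.2) (sep_cone hH hCs huv hφ)] with ε hε
    rw [ev_push, ev_cpt, ev_cpt]
    calc (0 : ℝ) < _ := hε
      _ = _ := by ring
  have hline : ∀ v g l, l ≠ C.la v → l ≠ C.lb v → ∀ o : ℝ,
      ∀ᶠ ε in 𝓝[>] (0 : ℝ),
        0 < ev (C.lin l + (0, 0, ε * o)) (C.cpt G ε v g) * ev (C.lin l) (C.pt v) := by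
    intro v g l h1 h2 o
    have h0 : ev (C.lin l) (C.pt v) ≠ 0 := hC.nz v l h1 h2
    filter_upwards [eventually_sign (b :=
      (C.lin l).1 * C.dx G v g + (C.lin l).2.1 * C.dy G v g - o)
      (mul_self_pos.mpr h0)] with ε hε
    rw [ev_const, ev_cpt]
    calc (0 : ℝ) < _ := hε
      _ = _ := by ring
  have hpen : ∀ g' : G.V, InC H (G.pen g') := by
    intro g'
    obtain ⟨⟨a1, a2, a3, a4⟩, b1, b2, b3, b4⟩ := hG.2 g'
    simp only [Prod.fst_add, Prod.smul_fst, Prod.snd_add, Prod.smul_snd, smul_eq_mul,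
      pen] at *
    simp only [InC, Prod.fst_add, Prod.snd_add]
    refine ⟨?_, ?_, ?_, ?_⟩ <;> nlinarith
  have e0 : ∀ᶠ ε in 𝓝[>] (0 : ℝ), 0 < ε := eventually_nhdsWithin_of_forall (fun x hx => hx)
  have e1 : ∀ᶠ ε in 𝓝[>] (0 : ℝ), ∀ v g l, l ≠ C.la v → l ≠ C.lb v → ∀ s : G.S,
      0 < ev (C.lin l + (0, 0, ε * G.off s)) (C.cpt G ε v g) * ev (C.lin l) (C.pt v) := by
    simp only [eventually_all]
    exact fun v g l h1 h2 s => hline v g l h1 h2 _
  have e2 : ∀ᶠ ε in 𝓝[>] (0 : ℝ), ∀ v g l, l ≠ C.la v → l ≠ C.lb v →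
      0 < ev (C.lin l + (0, 0, ε * R)) (C.cpt G ε v g) * ev (C.lin l) (C.pt v) := by
    simp only [eventually_all]
    exact fun v g l h1 h2 => hline v g l h1 h2 _
  have e3 : ∀ᶠ ε in 𝓝[>] (0 : ℝ), ∀ u v g, u ≠ v → ∀ e : G.E,
      0 < ev (C.push ε u (G.ext e)) (C.cpt G ε v g) * ev (C.pen u) (C.pt v) := by
    simp only [eventually_all]
    exact fun u v g h e => hpush u v g h _ (hG.1 e)
  have e4 : ∀ᶠ ε in 𝓝[>] (0 : ℝ), ∀ u v g, u ≠ v → ∀ g' : G.V,
      0 < ev (C.push ε u (G.pen g')) (C.cpt G ε v g) * ev (C.pen u) (C.pt v) := by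
    simp only [eventually_all]
    exact fun u v g h g' => hpush u v g h _ (hpen g')
  have e5 : ∀ᶠ ε in 𝓝[>] (0 : ℝ), ∀ u v g, u ≠ v → ∀ g' : G.V,
      0 < ev (C.push ε u (H' • G.lin (G.la g') + G.lin (G.lb g'))) (C.cpt G ε v g)
          * ev (C.pen u) (C.pt v) ∧
      0 < ev (C.push ε u (G.lin (G.la g') + H' • G.lin (G.lb g'))) (C.cpt G ε v g)
          * ev (C.pen u) (C.pt v) := by
    simp only [eventually_all]
    intro u v g h g'
    exact (hpush u v g h _ (hG.2 g').1).and (hpush u v g h _ (hG.2 g').2)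
  filter_upwards [e0, e1, e2, e3, e4, e5] with ε a b c d e f
  exact ⟨a, b, c, d, e, f⟩

lemma sum_Ln (F : (C.comp G ε R).Ln → ℕ) :
    ∑ l, F l = (∑ l : C.Ln, ((∑ s, F (C.sub G l s)) + F (C.dum G l)))
      + ∑ u : C.V, ∑ e, F (C.newE G u e) := by
  have h : ∀ F : C.CS G ⊕ (C.CS G ⊕ C.CE G) → ℕ,
      ∑ l, F l = (∑ l : C.Ln, ((∑ s, F (C.sub G l s)) + F (C.dum G l)))
        + ∑ u : C.V, ∑ e, F (C.newE G u e) := by
    intro F
    simp only [Finset.sum_add_distrib, Fintype.sum_sum_type, Fintype.sum_prod_type, sub, dum,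
      newE]
    ring
  exact h F

lemma n_comp : (C.comp G ε R).n = C.n * G.NS + C.W * G.NE + C.m * G.NE := by
  unfold n
  rw [sum_Ln]
  simp only [c_sub, c_dum, c_newE, Finset.sum_add_distrib, ← Finset.mul_sum, ← Finset.sum_mul,
    Finset.sum_const, Finset.card_univ, smul_eq_mul]
  rfl

lemma W_comp :
    (C.comp G ε R).W = C.n * G.WS + C.W * (G.m + G.WE) + C.m * G.WE := by
  unfold W
  rw [sum_Ln]
  simp only [w_sub, w_dum, w_newE, Finset.sum_add_distrib, ← Finset.mul_sum, ← Finset.sum_mul,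
    Finset.sum_const, Finset.card_univ, smul_eq_mul]
  rfl

lemma m_comp : (C.comp G ε R).m = C.m * G.m := by
  show Fintype.card (C.V × G.V) = _
  rw [Fintype.card_prod]; rfl

lemma NS_comp : (C.comp G ε R).NS = C.NS * G.NS + C.WS * G.NE := by
  show ∑ s : C.CS G, (C.comp G ε R).cS s = _
  show _ = (∑ s, C.cS s) * (∑ s, G.cS s) + (∑ s, C.wS s) * ∑ e, G.cE e
  rw [Finset.sum_mul_sum, Finset.sum_mul, ← Fintype.sum_prod_type']
  exact Fintype.sum_sum_type _

variable {H' : ℝ}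

section

variable (hC : C.Ok) (hR : ∀ g, (G.pt g).1 < R ∧ (G.pt g).2 < R)
  (hS : Small C G H' ε R)
include hC hR hS

lemma below_newE_ne {u v : C.V} (h : u ≠ v) (g : G.V) (e : G.E) :
    pos01 (ev ((C.comp G ε R).lin (C.newE G u e)) (C.cpt G ε v g))
      = pos01 (ev (C.pen u) (C.pt v)) := by
  rw [lin_newE]; exact pos01_of_same (hS.he u v g h e)

lemma below_newE_self (v : C.V) (g : G.V) (e : G.E) :
    pos01 (ev ((C.comp G ε R).lin (C.newE G v e)) (C.cpt G ε v g))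
      = pos01 (ev (G.ext e) (G.pt g)) := by
  rw [lin_newE, ev_push_cpt hC, pos01_mul hS.εpos]

lemma below_pen_ne {u v : C.V} (h : u ≠ v) (g g' : G.V) :
    pos01 (ev ((C.comp G ε R).pen (u, g')) (C.cpt G ε v g))
      = pos01 (ev (C.pen u) (C.pt v)) := by
  rw [pen_comp]; exact pos01_of_same (hS.hp u v g h g')

lemma below_pen_self (v : C.V) (g g' : G.V) :
    pos01 (ev ((C.comp G ε R).pen (v, g')) (C.cpt G ε v g))
      = pos01 (ev (G.pen g') (G.pt g)) := by
  rw [pen_comp, ev_push_cpt hC, pos01_mul hS.εpos]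

lemma ev_dum_la (v : C.V) (g : G.V) :
    ev ((C.comp G ε R).lin (C.dum G (C.la v))) (C.cpt G ε v g) < 0 := by
  rw [lin_dum, ev_const, ev_la_cpt hC]
  have := (hR g).1
  nlinarith [hS.εpos]

lemma ev_dum_lb (v : C.V) (g : G.V) :
    ev ((C.comp G ε R).lin (C.dum G (C.lb v))) (C.cpt G ε v g) < 0 := by
  rw [lin_dum, ev_const, ev_lb_cpt hC]
  have := (hR g).2
  nlinarith [hS.εpos]

lemma ev_sub_la (v : C.V) (g : G.V) (s : G.S) :
    ev ((C.comp G ε R).lin (C.sub G (C.la v) s)) (C.cpt G ε v g)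
      = ε * ev (G.lin (Sum.inl s)) (G.pt g) := by
  rw [lin_sub, ev_const, ev_la_cpt hC]; simp [lin, ev]; ring

lemma ev_sub_lb (v : C.V) (g : G.V) (s : G.S) :
    ev ((C.comp G ε R).lin (C.sub G (C.lb v) s)) (C.cpt G ε v g)
      = ε * ev (G.lin (Sum.inr (Sum.inl s))) (G.pt g) := by
  rw [lin_sub, ev_const, ev_lb_cpt hC]; simp [lin, ev]; ring

/-- Weighted count over one composed gadget, in terms of the two factors. -/
lemma weighted_below (v : C.V) (g : G.V) (f : C.Ln → ℕ) (fS : G.S → ℕ)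
    (fD : C.Ln → ℕ) (fE : G.E → ℕ) (hfa : f (C.la v) = 1) (hfb : f (C.lb v) = 1) :
    (∑ l : C.Ln, ((∑ s, f l * fS s *
          pos01 (ev ((C.comp G ε R).lin (C.sub G l s)) (C.cpt G ε v g)))
        + fD l * pos01 (ev ((C.comp G ε R).lin (C.dum G l)) (C.cpt G ε v g))))
      + ∑ u : C.V, ∑ e, fE e *
          pos01 (ev ((C.comp G ε R).lin (C.newE G u e)) (C.cpt G ε v g))
    = (∑ s, fS s) * (∑ l, f l * pos01 (ev (C.lin l) (C.pt v)))
      + (∑ l, fD l * pos01 (ev (C.lin l) (C.pt v)))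
      + (∑ e, fE e) * (∑ u, pos01 (ev (C.pen u) (C.pt v)))
      + ((∑ s, fS s * pos01 (ev (G.lin (Sum.inl s)) (G.pt g)))
        + (∑ s, fS s * pos01 (ev (G.lin (Sum.inr (Sum.inl s))) (G.pt g)))
        + ∑ e, fE e * pos01 (ev (G.ext e) (G.pt g))) := by
  classical
  have hA : ∀ l : C.Ln,
      ((∑ s, f l * fS s *
          pos01 (ev ((C.comp G ε R).lin (C.sub G l s)) (C.cpt G ε v g)))
        + fD l * pos01 (ev ((C.comp G ε R).lin (C.dum G l)) (C.cpt G ε v g)))
      = ((∑ s, fS s) * (f l * pos01 (ev (C.lin l) (C.pt v)))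
          + fD l * pos01 (ev (C.lin l) (C.pt v)))
        + ((if l = C.la v then ∑ s, fS s * pos01 (ev (G.lin (Sum.inl s)) (G.pt g)) else 0)
        + (if l = C.lb v then ∑ s, fS s * pos01 (ev (G.lin (Sum.inr (Sum.inl s))) (G.pt g))
            else 0)) := by
    intro l
    by_cases ha : l = C.la v
    · subst ha
      rw [if_pos rfl, if_neg (hC.ne v), hC.za v, pos01_zero,
        pos01_of_nonpos (ev_dum_la hC hR hS v g).le, hfa]
      simp [ev_sub_la hC hR hS, pos01_mul hS.εpos]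
    by_cases hb : l = C.lb v
    · subst hb
      rw [if_neg ha, if_pos rfl, hC.zb v, pos01_zero,
        pos01_of_nonpos (ev_dum_lb hC hR hS v g).le, hfb]
      simp [ev_sub_lb hC hR hS, pos01_mul hS.εpos]
    rw [if_neg ha, if_neg hb, lin_dum, pos01_of_same (hS.hd v g l ha hb)]
    have : ∀ s, pos01 (ev ((C.comp G ε R).lin (C.sub G l s)) (C.cpt G ε v g))
        = pos01 (ev (C.lin l) (C.pt v)) := fun s => by
      rw [lin_sub]; exact pos01_of_same (hS.hs v g l ha hb s)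
    simp only [this, Finset.sum_mul, add_zero]
    congr 1
    exact Finset.sum_congr rfl fun s _ => by ring
  have hB : ∀ u : C.V, ∑ e, fE e *
        pos01 (ev ((C.comp G ε R).lin (C.newE G u e)) (C.cpt G ε v g))
      = (∑ e, fE e) * pos01 (ev (C.pen u) (C.pt v))
        + (if u = v then ∑ e, fE e * pos01 (ev (G.ext e) (G.pt g)) else 0) := by
    intro u
    by_cases h : u = v
    · subst h
      rw [if_pos rfl, hC.pen_self, pos01_zero]
      simp [below_newE_self hC hR hS]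
    · simp [h, below_newE_ne hC hR hS h, Finset.sum_mul]
  rw [Finset.sum_congr rfl (fun l _ => hA l), Finset.sum_congr rfl (fun u _ => hB u)]
  simp only [Finset.sum_add_distrib, Finset.sum_ite_eq', Finset.mem_univ, if_true,
    ← Finset.mul_sum]
  ring

lemma cnt_comp (v : C.V) (g : G.V) :
    (C.comp G ε R).cnt (v, g) = G.NS * C.cnt v + G.NE * C.psi v + G.cnt g := by
  unfold cnt
  rw [sum_Ln]
  simp only [c_sub, c_dum, c_newE]
  have key := weighted_below hC hR hS v g C.c G.cS (fun l => C.w l * G.NE) G.cE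
    (hC.cla v) (hC.clb v)
  refine key.trans ?_
  have h1 : ∑ l, C.w l * G.NE * pos01 (ev (C.lin l) (C.pt v))
      = G.NE * ∑ l, C.w l * pos01 (ev (C.lin l) (C.pt v)) := by
    rw [Finset.mul_sum]; exact Finset.sum_congr rfl fun l _ => by ring
  have h2 : G.cnt g = (∑ s, G.cS s * pos01 (ev (G.lin (Sum.inl s)) (G.pt g)))
      + (∑ s, G.cS s * pos01 (ev (G.lin (Sum.inr (Sum.inl s))) (G.pt g)))
      + ∑ e, G.cE e * pos01 (ev (G.ext e) (G.pt g)) := by
    simp only [cnt, Fintype.sum_sum_type, add_assoc]; rfl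
  simp only [cnt] at h2
  rw [h1, h2]
  simp only [psi, NS, NE]
  ring

lemma psi_comp (v : C.V) (g : G.V) :
    (C.comp G ε R).psi (v, g)
      = G.WS * C.cnt v + (G.m + G.WE) * C.psi v + G.psi g := by
  classical
  unfold psi
  rw [sum_Ln]
  simp only [w_sub, w_dum, w_newE]
  have key := weighted_below hC hR hS v g C.c G.wS (fun l => C.w l * (G.m + G.WE)) G.wE
    (hC.cla v) (hC.clb v)
  have hp : ∑ x : (C.comp G ε R).V,
      pos01 (ev ((C.comp G ε R).pen x) (C.cpt G ε v g))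
      = G.m * (∑ u, pos01 (ev (C.pen u) (C.pt v)))
        + ∑ g', pos01 (ev (G.pen g') (G.pt g)) := by
    show ∑ x : C.V × G.V, pos01 (ev ((C.comp G ε R).pen x) (C.cpt G ε v g)) = _
    rw [Fintype.sum_prod_type]
    have hB : ∀ u : C.V, ∑ g', pos01 (ev ((C.comp G ε R).pen (u, g')) (C.cpt G ε v g))
        = G.m * pos01 (ev (C.pen u) (C.pt v))
          + (if u = v then ∑ g', pos01 (ev (G.pen g') (G.pt g)) else 0) := by
      intro u
      by_cases h : u = v
      · subst h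
        rw [if_pos rfl, hC.pen_self, pos01_zero]
        simp [below_pen_self hC hR hS]
      · simp [h, below_pen_ne hC hR hS h, m]
    rw [Finset.sum_congr rfl (fun u _ => hB u)]
    simp [Finset.sum_add_distrib, Finset.mul_sum]
  refine (congrArg₂ (· + ·) hp key).trans ?_
  have h1 : ∑ l, C.w l * (G.m + G.WE) * pos01 (ev (C.lin l) (C.pt v))
      = (G.m + G.WE) * ∑ l, C.w l * pos01 (ev (C.lin l) (C.pt v)) := by
    rw [Finset.mul_sum]; exact Finset.sum_congr rfl fun l _ => by ring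
  have h2 : ∑ l, G.w l * pos01 (ev (G.lin l) (G.pt g))
      = (∑ s, G.wS s * pos01 (ev (G.lin (Sum.inl s)) (G.pt g)))
      + (∑ s, G.wS s * pos01 (ev (G.lin (Sum.inr (Sum.inl s))) (G.pt g)))
      + ∑ e, G.wE e * pos01 (ev (G.ext e) (G.pt g)) := by
    simp only [Fintype.sum_sum_type, add_assoc]; rfl
  rw [h1, h2]
  simp only [WS, WE, cnt]
  ring

lemma ok_comp (hG : G.Ok) : (C.comp G ε R).Ok where
  za := by
    rintro ⟨v, g⟩
    show ev ((C.comp G ε R).lin (C.gmap G v (G.la g))) (C.cpt G ε v g) = 0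
    rw [lin_gmap, ev_push_cpt hC, hG.za, mul_zero]
  zb := by
    rintro ⟨v, g⟩
    show ev ((C.comp G ε R).lin (C.gmap G v (G.lb g))) (C.cpt G ε v g) = 0
    rw [lin_gmap, ev_push_cpt hC, hG.zb, mul_zero]
  ne := by
    rintro ⟨v, g⟩ h
    exact hG.ne g (gmap_inj hC v h)
  cla := by
    rintro ⟨v, g⟩
    show (C.comp G ε R).c (C.gmap G v (G.la g)) = 1
    rw [c_gmap hC, hG.cla]
  clb := by
    rintro ⟨v, g⟩
    show (C.comp G ε R).c (C.gmap G v (G.lb g)) = 1
    rw [c_gmap hC, hG.clb]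
  nz := by
    rintro ⟨v, g⟩ L h1 h2
    show ev ((C.comp G ε R).lin L) (C.cpt G ε v g) ≠ 0
    have own : ∀ l : G.Ln, L = C.gmap G v l →
        ev ((C.comp G ε R).lin L) (C.cpt G ε v g) ≠ 0 := by
      intro l hl
      subst hl
      rw [lin_gmap, ev_push_cpt hC]
      refine mul_ne_zero hS.εpos.ne' (hG.nz g l ?_ ?_)
      · intro h; exact h1 (by rw [h]; rfl)
      · intro h; exact h2 (by rw [h]; rfl)
    have hsub : ∀ l s, L = C.sub G l s → ev ((C.comp G ε R).lin L) (C.cpt G ε v g) ≠ 0 := by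
      intro l s hl
      by_cases ha : l = C.la v
      · exact own (Sum.inl s) (by rw [hl, ha]; rfl)
      by_cases hb : l = C.lb v
      · exact own (Sum.inr (Sum.inl s)) (by rw [hl, hb]; rfl)
      rw [hl, lin_sub]
      exact left_ne_zero_of_mul (hS.hs v g l ha hb s).ne'
    have hdum : ∀ l, L = C.dum G l → ev ((C.comp G ε R).lin L) (C.cpt G ε v g) ≠ 0 := by
      intro l hl
      by_cases ha : l = C.la v
      · rw [hl, ha]; exact (ev_dum_la hC hR hS v g).ne
      by_cases hb : l = C.lb v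
      · rw [hl, hb]; exact (ev_dum_lb hC hR hS v g).ne
      rw [hl, lin_dum]
      exact left_ne_zero_of_mul (hS.hd v g l ha hb).ne'
    rcases L with (⟨a, s⟩ | a) | (⟨a, s⟩ | a) | ⟨e, s⟩ | e | ⟨u, e⟩
    · exact hsub (Sum.inl a) s rfl
    · exact hdum (Sum.inl a) rfl
    · exact hsub (Sum.inr (Sum.inl a)) s rfl
    · exact hdum (Sum.inr (Sum.inl a)) rfl
    · exact hsub (Sum.inr (Sum.inr e)) s rfl
    · exact hdum (Sum.inr (Sum.inr e)) rfl
    · by_cases h : u = v
      · exact own (Sum.inr (Sum.inr e)) (by rw [h]; rfl)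
      · have := hS.he u v g h e
        exact left_ne_zero_of_mul this.ne'
  pz := by
    rintro ⟨u, g'⟩ ⟨v, g⟩ h
    show ev ((C.comp G ε R).pen (u, g')) (C.cpt G ε v g) ≠ 0
    rw [pen_comp]
    by_cases huv : u = v
    · subst huv
      rw [ev_push_cpt hC]
      exact mul_ne_zero hS.εpos.ne' (hG.pz g' g (fun hh => h (by rw [hh])))
    · exact left_ne_zero_of_mul (hS.hp u v g huv g').ne'
  det_ne := by
    rintro ⟨v, g⟩
    have hlin : (C.comp G ε R).det (v, g) = C.det v * G.det g := by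
      show ((C.comp G ε R).lin (C.gmap G v (G.la g))).1 *
          ((C.comp G ε R).lin (C.gmap G v (G.lb g))).2.1 -
        ((C.comp G ε R).lin (C.gmap G v (G.la g))).2.1 *
          ((C.comp G ε R).lin (C.gmap G v (G.lb g))).1 = _
      simp only [lin_gmap, det, push, Prod.fst_add, Prod.snd_add, Prod.smul_fst,
        Prod.smul_snd, smul_eq_mul]
      ring
    rw [hlin]; exact mul_ne_zero (hC.det_ne v) (hG.det_ne g)
  epos := by
    rintro (⟨e, s⟩ | e | ⟨u, e⟩)
    · show 0 < (C.ext e + (0, 0, ε * G.off s)).1 ∧ 0 < (C.ext e + (0, 0, ε * G.off s)).2.1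
      simpa using hC.epos e
    · show 0 < (C.ext e + (0, 0, ε * R)).1 ∧ 0 < (C.ext e + (0, 0, ε * R)).2.1
      simpa using hC.epos e
    · show 0 < (C.push ε u (G.ext e)).1 ∧ 0 < (C.push ε u (G.ext e)).2.1
      exact push_pos hC u (hG.epos e)
  ppos := by
    rintro ⟨v, g⟩
    rw [pen_comp]
    exact push_pos hC v (hG.ppos g)
  cc := by
    rintro ⟨u, g'⟩ ⟨v, g⟩
    rw [cnt_comp hC hR hS, cnt_comp hC hR hS, hC.cc u v, hC.pc u v, hG.cc g' g]
  pc := by
    rintro ⟨u, g'⟩ ⟨v, g⟩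
    rw [psi_comp hC hR hS, psi_comp hC hR hS, hC.cc u v, hC.pc u v, hG.pc g' g]
where
  push_pos (hC : C.Ok) {φ : Aff} (u : C.V) (h : 0 < φ.1 ∧ 0 < φ.2.1) :
      0 < (C.push ε u φ).1 ∧ 0 < (C.push ε u φ).2.1 := by
    obtain ⟨a1, a2⟩ := hC.lin_nonneg (C.la u)
    obtain ⟨b1, b2⟩ := hC.lin_nonneg (C.lb u)
    obtain ⟨p1, p2⟩ := hC.ppos u
    simp only [pen, Prod.fst_add, Prod.snd_add] at p1 p2
    simp only [push, Prod.fst_add, Prod.snd_add, Prod.smul_fst, Prod.smul_snd, smul_eq_mul,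
      add_zero]
    constructor
    · rcases a1.lt_or_eq with ha | ha
      · have := mul_pos h.1 ha; have := mul_nonneg h.2.le b1; linarith
      · rw [← ha]; have : 0 < (C.lin (C.lb u)).1 := by linarith
        simpa using mul_pos h.2 this
    · rcases a2.lt_or_eq with ha | ha
      · have := mul_pos h.1 ha; have := mul_nonneg h.2.le b2; linarith
      · rw [← ha]; have : 0 < (C.lin (C.lb u)).2.1 := by linarith
        simpa using mul_pos h.2 this

lemma sep_comp (hG : G.Ok) (hGs : G.Sep H') : (C.comp G ε R).Sep H' := by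
  rintro ⟨u, g'⟩ ⟨v, g⟩ h
  show 0 < ev (H' • (C.comp G ε R).lin (C.gmap G u (G.la g')) +
        (C.comp G ε R).lin (C.gmap G u (G.lb g'))) (C.cpt G ε v g)
      * ev ((C.comp G ε R).pen (u, g')) (C.cpt G ε v g) ∧
    0 < ev ((C.comp G ε R).lin (C.gmap G u (G.la g')) +
        H' • (C.comp G ε R).lin (C.gmap G u (G.lb g'))) (C.cpt G ε v g)
      * ev ((C.comp G ε R).pen (u, g')) (C.cpt G ε v g)
  simp only [lin_gmap, pen_comp, ← push_smul, ← push_add]
  by_cases huv : u = v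
  · subst huv
    simp only [ev_push_cpt hC]
    obtain ⟨h1, h2⟩ := hGs g' g (fun hh => h (by rw [hh]))
    have hε := mul_pos hS.εpos hS.εpos
    constructor
    · have := mul_pos hε h1; nlinarith
    · have := mul_pos hε h2; nlinarith
  · have hp := hS.hp u v g huv g'
    obtain ⟨h1, h2⟩ := hS.hc u v g huv g'
    constructor
    · rcases mul_pos_iff.mp hp with ⟨x, y⟩ | ⟨x, y⟩
      · exact mul_pos (pos_of_mul_pos_left h1 y.le) x
      · exact mul_pos_of_neg_of_neg (neg_of_mul_pos_left h1 y.le) x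
    · rcases mul_pos_iff.mp hp with ⟨x, y⟩ | ⟨x, y⟩
      · exact mul_pos (pos_of_mul_pos_left h2 y.le) x
      · exact mul_pos_of_neg_of_neg (neg_of_mul_pos_left h2 y.le) x

end

end Gad

end Vale.Agent.P065
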