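import Vale.Agent.P065.Compose

/-!
# Existence forms of composition
-/

namespace Vale.Agent.P065

open Finset Filter Topology

namespace Gad

variable {C G : Gad}

/-- A radius bounding the coordinates of all marked points. -/
noncomputable def rad (G : Gad) : ℝ := 1 + ∑ g, (|(G.pt g).1| + |(G.pt g).2|)

lemma lt_rad (g : G.V) : (G.pt g).1 < G.rad ∧ (G.pt g).2 < G.rad := by
  have h := Finset.single_le_sum (f := fun g => |(G.pt g).1| + |(G.pt g).2|)
    (fun x _ => by positivity) (Finset.mem_univ g)
  have := le_abs_self (G.pt g).1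
  have := le_abs_self (G.pt g).2
  have := abs_nonneg (G.pt g).1
  have := abs_nonneg (G.pt g).2
  unfold rad
  constructor <;> linarith

lemma exists_small {H H' : ℝ} (hH : 1 < H) (hH' : 1 ≤ H') (hC : C.Ok) (hCs : C.Sep H)
    (hG : G.Cone H H') : ∃ ε, Small C G H' ε G.rad :=
  (small_eventually hH hH' hC hCs hG).exists

/-- An exact gadget is separated for some ratio above one. -/
lemma Ok.exists_sep (h : C.Ok) : ∃ H : ℝ, 1 < H ∧ C.Sep H := by
  have hev : ∀ u v, ∀ᶠ H in 𝓝[>] (1 : ℝ), u ≠ v →
      0 < ev (H • C.lin (C.la u) + C.lin (C.lb u)) (C.pt v) * ev (C.pen u) (C.pt v) ∧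
      0 < ev (C.lin (C.la u) + H • C.lin (C.lb u)) (C.pt v) * ev (C.pen u) (C.pt v) := by
    intro u v
    by_cases huv : u = v
    · exact Filter.Eventually.of_forall fun H h => absurd huv h
    have hp := mul_self_pos.mpr (h.pz u v huv)
    apply nhdsWithin_le_nhds
    have c1 : Continuous fun H : ℝ =>
        ev (H • C.lin (C.la u) + C.lin (C.lb u)) (C.pt v) * ev (C.pen u) (C.pt v) := by
      simp only [ev_add, ev_smul]; fun_prop
    have c2 : Continuous fun H : ℝ =>
        ev (C.lin (C.la u) + H • C.lin (C.lb u)) (C.pt v) * ev (C.pen u) (C.pt v) := by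
      simp only [ev_add, ev_smul]; fun_prop
    filter_upwards [(c1.tendsto 1).eventually_const_lt (by simp only [one_smul]; exact hp),
      (c2.tendsto 1).eventually_const_lt (by simp only [one_smul]; exact hp)] with H h1 h2 _
    exact ⟨h1, h2⟩
  have e : ∀ᶠ H in 𝓝[>] (1 : ℝ), 1 < H ∧ C.Sep H := by
    refine (eventually_nhdsWithin_of_forall fun x hx => hx).and ?_
    show ∀ᶠ H in 𝓝[>] (1 : ℝ), ∀ u v, u ≠ v → _
    rw [eventually_all]; intro u; rw [eventually_all]; intro v
    exact hev u v
  exact e.exists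

/-- The trivial gadget: two lines through the origin. -/
def triv : Gad where
  S := Unit
  E := Empty
  V := Unit
  off := fun _ => 0
  ext := fun e => e.elim
  cS := fun _ => 1
  wS := fun _ => 0
  cE := fun e => e.elim
  wE := fun e => e.elim
  pt := fun _ => (0, 0)
  la := fun _ => Sum.inl ()
  lb := fun _ => Sum.inr (Sum.inl ())

lemma triv_ok : triv.Ok where
  za := fun _ => by simp [triv, lin, ev]
  zb := fun _ => by simp [triv, lin, ev]
  ne := fun _ => Sum.inl_ne_inr
  cla := fun _ => rfl
  clb := fun _ => rfl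
  nz := by
    intro v l h1 h2
    rcases l with s | s | e
    · exact absurd rfl h1
    · exact absurd rfl h2
    · exact e.elim
  pz := fun u v h => absurd rfl h
  det_ne := fun _ => by simp [triv, det, lin]
  epos := fun e => e.elim
  ppos := fun _ => by simp [triv, pen, lin]
  cc := fun u v => rfl
  pc := fun u v => rfl

lemma triv_sep (H : ℝ) : triv.Sep H := fun u v h => absurd rfl h

lemma triv_NS : triv.NS = 1 := by
  show ∑ _s : Unit, 1 = 1
  simp
lemma triv_NE : triv.NE = 0 := by simp [triv, NE]
lemma triv_n : triv.n = 2 := by rw [n_eq, triv_NS, triv_NE]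
lemma triv_m : triv.m = 1 := rfl
lemma triv_WS : triv.WS = 0 := by simp [triv, WS]
lemma triv_W : triv.W = 0 := by rw [W_eq, triv_WS]; simp [triv, WE]

end Gad

end Vale.Agent.P065
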