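import Vale.Agent.P065.PlanarDefs

/-!
# From degenerate indexed configurations to point sets in general position
-/

namespace Vale.Agent.P065

open Finset Filter Topology

/-- An indexed family of points with marked lines through two of them, each having exactly `k - 1`
points strictly below and all others strictly above. -/
structure PConf (k : ℕ) : Type 1 where
  ι : Type
  V : Type
  [finι : Fintype ι]
  [finV : Fintype V]
  p : ι → ℝ × ℝ
  a : V → ι
  b : V → ι
  g : V → ℝ
  h : V → ℝ
  lt : ∀ v, (p (a v)).1 < (p (b v)).1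
  ona : ∀ v, (p (a v)).2 = g v * (p (a v)).1 + h v
  onb : ∀ v, (p (b v)).2 = g v * (p (b v)).1 + h v
  off : ∀ v i, i ≠ a v → i ≠ b v → (p i).2 - g v * (p i).1 - h v ≠ 0
  below : ∀ v, (univ.filter (fun i => (p i).2 - g v * (p i).1 - h v < 0)).card + 1 = k
  inj : ∀ u v, a u = a v → b u = b v → u = v

attribute [instance] PConf.finι PConf.finV

lemma eventually_quad_ne (a b c : ℝ) (h : a ≠ 0 ∨ b ≠ 0 ∨ c ≠ 0) :
    ∀ᶠ t in 𝓝[>] (0 : ℝ), a + t * b + t ^ 2 * c ≠ 0 := by
  have e0 : ∀ᶠ t in 𝓝[>] (0 : ℝ), 0 < t := eventually_nhdsWithin_of_forall (fun x hx => hx)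
  rcases eq_or_ne a 0 with rfl | ha
  · rcases eq_or_ne b 0 with rfl | hb
    · filter_upwards [e0] with t ht
      have hc : c ≠ 0 := by simpa using h
      simpa using mul_ne_zero (pow_ne_zero 2 ht.ne') hc
    · have : ∀ᶠ t in 𝓝[>] (0 : ℝ), b + t * c ≠ 0 := nhdsWithin_le_nhds
        (((by fun_prop : Continuous fun t : ℝ => b + t * c).tendsto 0).eventually_ne
          (by simpa using hb))
      filter_upwards [e0, this] with t ht hh
      have : t * (b + t * c) ≠ 0 := mul_ne_zero ht.ne' hh
      contrapose this; linear_combination this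
  · exact nhdsWithin_le_nhds
      (((by fun_prop : Continuous fun t : ℝ => a + t * b + t ^ 2 * c).tendsto 0).eventually_ne
        (by simpa using ha))

namespace PConf

variable {k : ℕ} (C : PConf k)

/-- Distinct real labels. -/
noncomputable def lab (i : C.ι) : ℝ := ((Fintype.equivFin C.ι i : ℕ) : ℝ)

lemma lab_inj : Function.Injective C.lab := by
  intro i j h
  exact (Fintype.equivFin C.ι).injective (Fin.ext (Nat.cast_injective h))

/-- The perturbed points. -/
noncomputable def pp (t : ℝ) (i : C.ι) : ℝ × ℝ :=
  ((C.p i).1 + t * C.lab i, (C.p i).2 + t * C.lab i ^ 2)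

/-- Slope of the perturbed marked line. -/
noncomputable def pg (t : ℝ) (v : C.V) : ℝ :=
  ((C.pp t (C.b v)).2 - (C.pp t (C.a v)).2) / ((C.pp t (C.b v)).1 - (C.pp t (C.a v)).1)

/-- Vertical offset of the point `i` from the perturbed marked line. -/
noncomputable def pv (t : ℝ) (v : C.V) (i : C.ι) : ℝ :=
  (C.pp t i).2 - (C.pp t (C.a v)).2 - C.pg t v * ((C.pp t i).1 - (C.pp t (C.a v)).1)

lemma pv_zero (v : C.V) (i : C.ι) :
    C.pv 0 v i = (C.p i).2 - C.g v * (C.p i).1 - C.h v := by
  have hne : (C.p (C.b v)).1 - (C.p (C.a v)).1 ≠ 0 := by linarith [C.lt v]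
  have hg : C.pg 0 v = C.g v := by
    simp only [pg, pp, zero_mul, add_zero, C.ona, C.onb]
    rw [div_eq_iff hne]; ring
  simp only [pv, hg, pp, zero_mul, add_zero, C.ona]; ring

/-- The conditions on the perturbation parameter. -/
def Good (t : ℝ) : Prop :=
  (∀ i j, i ≠ j → C.pp t i ≠ C.pp t j) ∧
  (∀ i j l, i ≠ j → i ≠ l → j ≠ l →
    ((C.pp t j).1 - (C.pp t i).1) * ((C.pp t l).2 - (C.pp t i).2) -
    ((C.pp t j).2 - (C.pp t i).2) * ((C.pp t l).1 - (C.pp t i).1) ≠ 0) ∧
  (∀ v, (C.pp t (C.a v)).1 < (C.pp t (C.b v)).1) ∧
  (∀ v i, i ≠ C.a v → i ≠ C.b v →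
    0 < C.pv t v i * ((C.p i).2 - C.g v * (C.p i).1 - C.h v))

lemma exists_good : ∃ t, C.Good t := by
  have e1 : ∀ᶠ t in 𝓝[>] (0 : ℝ), ∀ i j, i ≠ j → C.pp t i ≠ C.pp t j := by
    simp only [eventually_all]
    intro i j hij
    filter_upwards [eventually_quad_ne ((C.p i).1 - (C.p j).1) (C.lab i - C.lab j) 0
      (Or.inr (Or.inl (sub_ne_zero.mpr (C.lab_inj.ne hij))))] with t ht hh
    apply ht
    have := congrArg Prod.fst hh
    simp only [pp] at this
    linear_combination this
  have e2 : ∀ᶠ t in 𝓝[>] (0 : ℝ), ∀ i j l, i ≠ j → i ≠ l → j ≠ l →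
      ((C.pp t j).1 - (C.pp t i).1) * ((C.pp t l).2 - (C.pp t i).2) -
      ((C.pp t j).2 - (C.pp t i).2) * ((C.pp t l).1 - (C.pp t i).1) ≠ 0 := by
    simp only [eventually_all]
    intro i j l hij hil hjl
    filter_upwards [eventually_quad_ne
      (((C.p j).1 - (C.p i).1) * ((C.p l).2 - (C.p i).2)
        - ((C.p j).2 - (C.p i).2) * ((C.p l).1 - (C.p i).1))
      (((C.p j).1 - (C.p i).1) * (C.lab l ^ 2 - C.lab i ^ 2)
        + (C.lab j - C.lab i) * ((C.p l).2 - (C.p i).2)
        - ((C.p j).2 - (C.p i).2) * (C.lab l - C.lab i)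
        - (C.lab j ^ 2 - C.lab i ^ 2) * ((C.p l).1 - (C.p i).1))
      ((C.lab j - C.lab i) * (C.lab l - C.lab i) * (C.lab l - C.lab j))
      (Or.inr (Or.inr (mul_ne_zero (mul_ne_zero (sub_ne_zero.mpr (C.lab_inj.ne hij.symm))
        (sub_ne_zero.mpr (C.lab_inj.ne hil.symm)))
        (sub_ne_zero.mpr (C.lab_inj.ne hjl.symm)))))] with t ht hh
    apply ht
    simp only [pp] at hh
    linear_combination hh
  have e3 : ∀ᶠ t in 𝓝[>] (0 : ℝ), ∀ v, (C.pp t (C.a v)).1 < (C.pp t (C.b v)).1 := by
    simp only [eventually_all]
    intro v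
    refine nhdsWithin_le_nhds (Tendsto.eventually_lt ?_ ?_ (C.lt v))
    · exact ((by unfold pp; fun_prop : Continuous fun t => (C.pp t (C.a v)).1).tendsto' 0 _
        (by simp [pp]))
    · exact ((by unfold pp; fun_prop : Continuous fun t => (C.pp t (C.b v)).1).tendsto' 0 _
        (by simp [pp]))
  have e4 : ∀ᶠ t in 𝓝[>] (0 : ℝ), ∀ v i, i ≠ C.a v → i ≠ C.b v →
      0 < C.pv t v i * ((C.p i).2 - C.g v * (C.p i).1 - C.h v) := by
    simp only [eventually_all]
    intro v i h1 h2
    have hne : (C.pp 0 (C.b v)).1 - (C.pp 0 (C.a v)).1 ≠ 0 := by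
      simp only [pp, zero_mul, add_zero]; linarith [C.lt v]
    have hc : ContinuousAt (fun t => C.pv t v i) 0 := by
      unfold pv pg
      refine ContinuousAt.sub ?_ (ContinuousAt.mul (ContinuousAt.div ?_ ?_ hne) ?_) <;>
        (unfold pp; fun_prop)
    have h0 : (0 : ℝ) < C.pv 0 v i * ((C.p i).2 - C.g v * (C.p i).1 - C.h v) := by
      rw [pv_zero]; exact mul_self_pos.mpr (C.off v i h1 h2)
    exact nhdsWithin_le_nhds ((hc.mul continuousAt_const).tendsto.eventually_const_lt h0)
  exact ((e1.and (e2.and (e3.and e4)))).exists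

/-- Perturbation yields a set in general position with at least as many `k`-sets as marked lines,
and as many halving lines when there are `2 * k` points. -/
lemma realize : ∃ P : Finset (ℝ × ℝ), P.card = Fintype.card C.ι ∧ NoThreeCollinear P ∧
    Fintype.card C.V ≤ numKSets P k ∧
    (Fintype.card C.ι = 2 * k → Fintype.card C.V ≤ numHalving P) := by
  classical
  obtain ⟨t, hd, hcol, hlt, hsg⟩ := C.exists_good
  have hinj : Function.Injective (C.pp t) := fun i j h => by
    by_contra hne; exact hd i j hne h
  set P := univ.image (C.pp t) with hP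
  have hcard : P.card = Fintype.card C.ι := by
    rw [hP, card_image_of_injective _ hinj, Finset.card_univ]
  have hmem : ∀ i, C.pp t i ∈ P := fun i => mem_image_of_mem _ (mem_univ i)
  have va : ∀ v, C.pv t v (C.a v) = 0 := fun v => by simp [pv]
  have vb : ∀ v, C.pv t v (C.b v) = 0 := fun v => by
    have := hlt v
    simp only [pv, pg]
    rw [div_mul_cancel₀ _ (by linarith)]; ring
  have hab : ∀ v, C.a v ≠ C.b v := fun v h => by
    have := C.lt v; rw [h] at this; exact lt_irrefl _ this
  have h0a : ∀ v, (C.p (C.a v)).2 - C.g v * (C.p (C.a v)).1 - C.h v = 0 := fun v => by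
    rw [C.ona]; ring
  have h0b : ∀ v, (C.p (C.b v)).2 - C.g v * (C.p (C.b v)).1 - C.h v = 0 := fun v => by
    rw [C.onb]; ring
  have hneg : ∀ v i, C.pv t v i < 0 ↔ (C.p i).2 - C.g v * (C.p i).1 - C.h v < 0 := by
    intro v i
    by_cases h1 : i = C.a v
    · subst h1; simp [va, h0a]
    by_cases h2 : i = C.b v
    · subst h2; simp [vb, h0b]
    rcases mul_pos_iff.mp (hsg v i h1 h2) with ⟨x, y⟩ | ⟨x, y⟩ <;> constructor <;> intro <;>
      linarith
  have hzero : ∀ v i, C.pv t v i = 0 → i = C.a v ∨ i = C.b v := by
    intro v i h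
    by_contra hh
    push_neg at hh
    have := hsg v i hh.1 hh.2
    rw [h, zero_mul] at this; exact lt_irrefl _ this
  let L : C.V → Finset C.ι := fun v => univ.filter (fun i => C.pv t v i < 0)
  have hL : ∀ v, (L v).card + 1 = k := fun v => by
    refine Eq.trans ?_ (C.below v)
    congr 2
    ext i
    simp [L, hneg]
  let S : C.V → Finset (ℝ × ℝ) := fun v => (insert (C.a v) (L v)).image (C.pp t)
  refine ⟨P, hcard, ?_, ?_, ?_⟩
  · intro p hp q hq r hr hpq hpr hqr hc
    obtain ⟨i, -, rfl⟩ := mem_image.mp hp
    obtain ⟨j, -, rfl⟩ := mem_image.mp hq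
    obtain ⟨l, -, rfl⟩ := mem_image.mp hr
    obtain ⟨v, hv⟩ := (collinear_iff_of_mem (k := ℝ)
      (show C.pp t i ∈ ({C.pp t i, C.pp t j, C.pp t l} : Set (ℝ × ℝ)) by simp)).mp hc
    obtain ⟨r1, h1⟩ := hv (C.pp t j) (by simp)
    obtain ⟨r2, h2⟩ := hv (C.pp t l) (by simp)
    apply hcol i j l (fun h => hpq (by rw [h])) (fun h => hpr (by rw [h]))
      (fun h => hqr (by rw [h]))
    rw [h1, h2]
    simp [vadd_eq_add]
    ring
  · have hK : ∀ v, IsKSet P k (S v) := by
      intro v
      refine ⟨image_subset_image (subset_univ _), ?_, ?_⟩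
      · rw [card_image_of_injective _ hinj, card_insert_of_notMem (by simp [L, va]), hL]
      · set m := ((C.pp t (C.a v)).1 + (C.pp t (C.b v)).1) / 2 with hm
        have ev : ∀ᶠ γ in 𝓝[>] (0 : ℝ), 0 < γ ∧ ∀ i, i ≠ C.a v → i ≠ C.b v →
            0 < (C.pv t v i + γ * ((C.pp t i).1 - m)) * C.pv t v i := by
          refine (eventually_nhdsWithin_of_forall fun x hx => hx).and ?_
          simp only [eventually_all]
          intro i h1 h2
          refine nhdsWithin_le_nhds (((by fun_prop : Continuous fun γ : ℝ =>
            (C.pv t v i + γ * ((C.pp t i).1 - m)) * C.pv t v i).tendsto 0).eventually_const_lt ?_)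
          simpa using (left_ne_zero_of_mul (hsg v i h1 h2).ne')
        obtain ⟨γ, hγ, hγs⟩ := ev.exists
        have key : ∀ i, C.pv t v i + γ * ((C.pp t i).1 - m)
            = (-(C.pg t v) + γ) * (C.pp t i).1 + 1 * (C.pp t i).2
              - ((C.pp t (C.a v)).2 - C.pg t v * (C.pp t (C.a v)).1 + γ * m) := by
          intro i; simp only [pv]; ring
        refine ⟨-(C.pg t v) + γ, 1,
          (C.pp t (C.a v)).2 - C.pg t v * (C.pp t (C.a v)).1 + γ * m, Or.inr one_ne_zero, ?_, ?_⟩
        · intro p hp
          obtain ⟨i, hi, rfl⟩ := mem_image.mp hp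
          have := key i
          rcases mem_insert.mp hi with rfl | hi
          · rw [va] at this
            have := hlt v
            nlinarith
          · have hi' : C.pv t v i < 0 := (mem_filter.mp hi).2
            have h1 : i ≠ C.a v := fun h => by rw [h, va] at hi'; exact lt_irrefl _ hi'
            have h2 : i ≠ C.b v := fun h => by rw [h, vb] at hi'; exact lt_irrefl _ hi'
            have := neg_of_mul_pos_left (hγs i h1 h2) hi'.le
            linarith
        · intro p hp hnot
          obtain ⟨i, -, rfl⟩ := mem_image.mp hp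
          have hi : i ∉ insert (C.a v) (L v) := fun h => hnot (mem_image_of_mem _ h)
          simp only [mem_insert, not_or, L, mem_filter, mem_univ, true_and, not_lt] at hi
          have := key i
          by_cases h2 : i = C.b v
          · subst h2
            rw [vb] at this
            have := hlt v
            nlinarith
          · have hpos : 0 < C.pv t v i := lt_of_le_of_ne hi.2
              (fun h => by rcases hzero v i h.symm with h' | h'
                           · exact hi.1 h'
                           · exact h2 h')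
            have := pos_of_mul_pos_left (hγs i hi.1 h2) hpos.le
            linarith
    have hSinj : Function.Injective S := by
      intro u v huv
      have hset : insert (C.a u) (L u) = insert (C.a v) (L v) :=
        Finset.image_injective hinj huv
      have inS : ∀ w i, i ∈ insert (C.a w) (L w) → C.pv t w i ≤ 0 := by
        intro w i hi
        rcases mem_insert.mp hi with rfl | hi
        · exact (va w).le
        · exact (mem_filter.mp hi).2.le
      have outS : ∀ w i, i ∉ insert (C.a w) (L w) → 0 ≤ C.pv t w i := by
        intro w i hi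
        simp only [mem_insert, not_or, L, mem_filter, mem_univ, true_and, not_lt] at hi
        exact hi.2
      have hb : ∀ w, C.b w ∉ insert (C.a w) (L w) := fun w => by
        simp [L, vb, (hab w).symm]
      have lin : ∀ i j, (C.pv t v i - C.pv t u i) - (C.pv t v j - C.pv t u j)
          = (C.pg t u - C.pg t v) * ((C.pp t i).1 - (C.pp t j).1) := by
        intro i j; simp only [pv]; ring
      have d1 := inS v (C.a u) (by rw [← hset]; exact mem_insert_self _ _)
      have d2 := outS v (C.b u) (by rw [← hset]; exact hb u)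
      have d3 := inS u (C.a v) (by rw [hset]; exact mem_insert_self _ _)
      have d4 := outS u (C.b v) (by rw [hset]; exact hb v)
      have l1 := lin (C.b u) (C.a u)
      have l2 := lin (C.b v) (C.a v)
      rw [va, vb] at l1
      rw [va, vb] at l2
      have hu := sub_pos.mpr (hlt u)
      have hv := sub_pos.mpr (hlt v)
      have hσ : C.pg t u - C.pg t v = 0 := by
        apply le_antisymm
        · by_contra hc; push_neg at hc
          have := mul_pos hc hv; linarith
        · by_contra hc; push_neg at hc
          have := mul_neg_of_neg_of_pos hc hu; linarith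
      have l3 := lin (C.a u) (C.a v)
      rw [hσ, zero_mul] at l1 l2 l3
      rw [va, va] at l3
      have za : C.pv t v (C.a u) = 0 := by linarith
      have zb : C.pv t v (C.b u) = 0 := by linarith
      refine C.inj u v ?_ ?_
      · rcases hzero v _ za with h | h
        · exact h
        · exfalso; apply hb v; rw [← h, ← hset]; exact mem_insert_self _ _
      · rcases hzero v _ zb with h | h
        · exfalso; apply hb u; rw [hset, h]; exact mem_insert_self _ _
        · exact h
    have hfin : {T : Finset (ℝ × ℝ) | IsKSet P k T}.Finite :=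
      P.powerset.finite_toSet.subset fun T hT => by simpa using hT.1
    calc Fintype.card C.V = (univ.image S).card := by
          rw [card_image_of_injective _ hSinj, Finset.card_univ]
      _ = Set.ncard ((univ.image S : Finset _) : Set (Finset (ℝ × ℝ))) :=
          (Set.ncard_coe_finset _).symm
      _ ≤ _ := Set.ncard_le_ncard (by
            intro T hT
            simp only [coe_image, coe_univ, Set.image_univ, Set.mem_range] at hT
            obtain ⟨v, rfl⟩ := hT
            exact hK v) hfin
  · intro h2k
    let E : C.V → Finset (ℝ × ℝ) := fun v => {C.pp t (C.a v), C.pp t (C.b v)}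
    have hE : ∀ v, IsHalvingPair P (E v) := by
      intro v
      refine ⟨_, _, hmem (C.a v), hmem (C.b v), fun h => hab v (hinj h), rfl,
        -(C.pg t v), 1, (C.pp t (C.a v)).2 - C.pg t v * (C.pp t (C.a v)).1,
        Or.inr one_ne_zero, by ring, ?_, ?_, ?_⟩
      · have := vb v; simp only [pv] at this; linarith
      all_goals have hlow : (univ.filter (fun i => C.pv t v i < 0)).card + 1 = k := hL v
      · have : P.filter (fun r => -(C.pg t v) * r.1 + 1 * r.2
            < (C.pp t (C.a v)).2 - C.pg t v * (C.pp t (C.a v)).1)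
            = (univ.filter (fun i => C.pv t v i < 0)).image (C.pp t) := by
          rw [hP, filter_image]
          congr 1
          refine filter_congr fun i _ => ?_
          simp only [pv]
          constructor <;> intro <;> linarith
        rw [this, card_image_of_injective _ hinj, hcard]
        omega
      · have : P.filter (fun r => (C.pp t (C.a v)).2 - C.pg t v * (C.pp t (C.a v)).1
            < -(C.pg t v) * r.1 + 1 * r.2)
            = (univ.filter (fun i => 0 < C.pv t v i)).image (C.pp t) := by
          rw [hP, filter_image]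
          congr 1
          refine filter_congr fun i _ => ?_
          simp only [pv]
          constructor <;> intro <;> linarith
        rw [this, card_image_of_injective _ hinj, hcard]
        have hpart : univ.filter (fun i => 0 < C.pv t v i)
            = univ \ (insert (C.b v) (insert (C.a v) (univ.filter fun i => C.pv t v i < 0))) := by
          ext i
          simp only [mem_filter, mem_univ, true_and, Finset.mem_sdiff, mem_insert, not_or, not_lt]
          constructor
          · intro hi
            exact ⟨fun h => by rw [h, vb] at hi; exact lt_irrefl _ hi,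
              fun h => by rw [h, va] at hi; exact lt_irrefl _ hi, hi.le⟩
          · rintro ⟨h1, h2, h3⟩
            exact lt_of_le_of_ne h3 fun h => by
              rcases hzero v i h.symm with h' | h'
              · exact h2 h'
              · exact h1 h'
        rw [hpart, card_univ_sdiff, card_insert_of_notMem, card_insert_of_notMem]
        · omega
        · simp [va]
        · simp [vb, (hab v).symm]
    have hEinj : Function.Injective E := by
      intro u v huv
      have h1 : C.pp t (C.a u) ∈ E v := huv ▸ mem_insert_self _ _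
      have h2 : C.pp t (C.b u) ∈ E v := huv ▸ mem_insert_of_mem (mem_singleton_self _)
      simp only [E, mem_insert, mem_singleton, hinj.eq_iff] at h1 h2
      have hu := hlt u
      have hv := hlt v
      rcases h1 with h1 | h1 <;> rcases h2 with h2 | h2
      · exact absurd (h1.trans h2.symm) (hab u)
      · exact C.inj u v h1 h2
      · rw [h1, h2] at hu; linarith
      · exact absurd (h1.trans h2.symm) (hab u)
    have hfin : {e : Finset (ℝ × ℝ) | IsHalvingPair P e}.Finite := by
      refine P.powerset.finite_toSet.subset ?_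
      rintro e ⟨p, q, hp, hq, -, rfl, -⟩
      exact mem_coe.mpr (mem_powerset.mpr (insert_subset hp (singleton_subset_iff.mpr hq)))
    calc Fintype.card C.V = (univ.image E).card := by
          rw [card_image_of_injective _ hEinj, Finset.card_univ]
      _ = Set.ncard ((univ.image E : Finset _) : Set (Finset (ℝ × ℝ))) :=
          (Set.ncard_coe_finset _).symm
      _ ≤ _ := Set.ncard_le_ncard (by
            intro T hT
            simp only [coe_image, coe_univ, Set.image_univ, Set.mem_range] at hT
            obtain ⟨v, rfl⟩ := hT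
            exact hE v) hfin

end PConf

end Vale.Agent.P065
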