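import Mathlib

/-!
# `k`-sets and halving lines of planar point sets
-/

namespace Vale.Agent.P065

/-- No three points of `P` lie on a line. -/
def NoThreeCollinear (P : Finset (ℝ × ℝ)) : Prop :=
  ∀ p ∈ P, ∀ q ∈ P, ∀ r ∈ P, p ≠ q → p ≠ r → q ≠ r → ¬ Collinear ℝ ({p, q, r} : Set (ℝ × ℝ))

/-- `S` is a `k`-set of `P`: a subset of size `k` strictly separated from the rest of `P` by a
line. -/
def IsKSet (P : Finset (ℝ × ℝ)) (k : ℕ) (S : Finset (ℝ × ℝ)) : Prop :=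
  S ⊆ P ∧ S.card = k ∧ ∃ a b c : ℝ, (a ≠ 0 ∨ b ≠ 0) ∧
    (∀ p ∈ S, a * p.1 + b * p.2 < c) ∧ ∀ p ∈ P, p ∉ S → c < a * p.1 + b * p.2

/-- The number of `k`-sets of `P`. -/
noncomputable def numKSets (P : Finset (ℝ × ℝ)) (k : ℕ) : ℕ :=
  {S : Finset (ℝ × ℝ) | IsKSet P k S}.ncard

/-- `e` is an unordered pair of points of `P` spanning a halving line of `P`. -/
def IsHalvingPair (P : Finset (ℝ × ℝ)) (e : Finset (ℝ × ℝ)) : Prop :=
  ∃ p q, p ∈ P ∧ q ∈ P ∧ p ≠ q ∧ e = {p, q} ∧ ∃ a b c : ℝ, (a ≠ 0 ∨ b ≠ 0) ∧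
    a * p.1 + b * p.2 = c ∧ a * q.1 + b * q.2 = c ∧
    (P.filter (fun r => a * r.1 + b * r.2 < c)).card = (P.card - 2) / 2 ∧
    (P.filter (fun r => c < a * r.1 + b * r.2)).card = (P.card - 2) / 2

/-- The number of halving lines of `P`, counted as spanning pairs. -/
noncomputable def numHalving (P : Finset (ℝ × ℝ)) : ℕ :=
  {e : Finset (ℝ × ℝ) | IsHalvingPair P e}.ncard

end Vale.Agent.P065
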