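import Vale.Agent.P065.Exists

/-!
# The elementary step and its iterates

`step a` replaces each of the two lines by `a` parallel lines and adds one line through the
middle anti-diagonal of the resulting grid.
-/

namespace Vale.Agent.P065

open Finset

/-- The elementary gadget. -/
noncomputable def step (a : ℕ) : Gad where
  S := Fin a
  E := Unit
  V := Fin a ⊕ Fin a
  off := fun s => (s : ℕ)
  ext := fun _ => (1, 1, (a : ℝ) - 1 / 2)
  cS := fun _ => 1
  wS := fun _ => 0
  cE := fun _ => 1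
  wE := fun _ => 0
  pt := Sum.elim (fun i => ((i : ℕ), (a : ℝ) - 1 / 2 - (i : ℕ)))
    (fun j => ((a : ℝ) - 1 / 2 - (j : ℕ), (j : ℕ)))
  la := Sum.elim (fun i => Sum.inl i) (fun _ => Sum.inr (Sum.inr ()))
  lb := Sum.elim (fun _ => Sum.inr (Sum.inr ())) (fun j => Sum.inr (Sum.inl j))

lemma half_ne (a i j : ℕ) : (a : ℝ) - 1 / 2 - i - j ≠ 0 := by
  intro h
  have h' : ((2 * a : ℕ) : ℝ) = ((2 * i + 2 * j + 1 : ℕ) : ℝ) := by push_cast; linarith
  have := Nat.cast_injective (R := ℝ) h'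
  omega

lemma half_pos_iff (a i s : ℕ) : 0 < (a : ℝ) - 1 / 2 - i - s ↔ s < a - i := by
  constructor
  · intro h
    by_contra hc
    have : a ≤ i + s := by omega
    have : (a : ℝ) ≤ i + s := by exact_mod_cast this
    linarith
  · intro h
    have : i + s + 1 ≤ a := by omega
    have : (i : ℝ) + s + 1 ≤ a := by exact_mod_cast this
    linarith

lemma sum_pos01_range (a : ℕ) (f : Fin a → ℝ) (k : ℕ) (hk : k ≤ a)
    (h : ∀ s : Fin a, 0 < f s ↔ (s : ℕ) < k) : ∑ s, pos01 (f s) = k := by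
  have : ∀ s : Fin a, pos01 (f s) = if (s : ℕ) < k then 1 else 0 := by
    intro s
    simp only [pos01, h s]
  rw [Finset.sum_congr rfl (fun s _ => this s),
    Fin.sum_univ_eq_sum_range (fun s => if s < k then 1 else 0), Finset.sum_ite]
  simp only [Finset.sum_const, smul_eq_mul, mul_one, mul_zero, add_zero]
  have : (Finset.range a).filter (fun s => s < k) = Finset.range k := by
    ext s; simp only [Finset.mem_filter, Finset.mem_range]; omega
  rw [this, Finset.card_range]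

lemma step_row (a : ℕ) (i : Fin a) :
    (∑ s : Fin a, pos01 ((i : ℕ) - (s : ℕ) : ℝ)) +
      ∑ s : Fin a, pos01 ((a : ℝ) - 1 / 2 - (i : ℕ) - (s : ℕ)) = a := by
  rw [sum_pos01_range a _ i i.2.le (fun s => by rw [sub_pos, Nat.cast_lt]),
    sum_pos01_range a _ (a - i) (by omega) (fun s => half_pos_iff a i s)]
  omega

section

variable {a : ℕ} (i j s : Fin a) (u : Unit)

lemma ev_P_inl : ev ((step a).lin (Sum.inl s)) ((step a).pt (Sum.inl i))
    = ((i : ℕ) : ℝ) - ((s : ℕ) : ℝ) := by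
  show (1 : ℝ) * _ + 0 * _ - _ = _; ring_nf; rfl

lemma ev_Q_inl : ev ((step a).lin (Sum.inr (Sum.inl s))) ((step a).pt (Sum.inl i))
    = (a : ℝ) - 1 / 2 - (i : ℕ) - (s : ℕ) := by
  show (0 : ℝ) * ((i : ℕ) : ℝ) + 1 * ((a : ℝ) - 1 / 2 - (i : ℕ)) - ((s : ℕ) : ℝ) = _; ring

lemma ev_D (v : (step a).V) : ev ((step a).lin (Sum.inr (Sum.inr u))) ((step a).pt v) = 0 := by
  rcases v with i | j
  · show (1 : ℝ) * ((i : ℕ) : ℝ) + 1 * ((a : ℝ) - 1 / 2 - (i : ℕ)) - ((a : ℝ) - 1 / 2) = 0; ring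
  · show (1 : ℝ) * ((a : ℝ) - 1 / 2 - (j : ℕ)) + 1 * ((j : ℕ) : ℝ) - ((a : ℝ) - 1 / 2) = 0; ring

lemma ev_P_inr : ev ((step a).lin (Sum.inl s)) ((step a).pt (Sum.inr j))
    = (a : ℝ) - 1 / 2 - (j : ℕ) - (s : ℕ) := by
  show (1 : ℝ) * ((a : ℝ) - 1 / 2 - (j : ℕ)) + 0 * ((j : ℕ) : ℝ) - ((s : ℕ) : ℝ) = _; ring

lemma ev_Q_inr : ev ((step a).lin (Sum.inr (Sum.inl s))) ((step a).pt (Sum.inr j))
    = ((j : ℕ) : ℝ) - ((s : ℕ) : ℝ) := by
  show (0 : ℝ) * ((a : ℝ) - 1 / 2 - (j : ℕ)) + 1 * ((j : ℕ) : ℝ) - ((s : ℕ) : ℝ) = _; ring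

lemma ev_pen_inl (v : (step a).V) : ev ((step a).pen (Sum.inl i)) ((step a).pt v)
    = ev ((step a).lin (Sum.inl i)) ((step a).pt v) := by
  show ev ((step a).lin (Sum.inl i) + (step a).lin (Sum.inr (Sum.inr ()))) _ = _
  rw [ev_add, ev_D, add_zero]

lemma ev_pen_inr (v : (step a).V) : ev ((step a).pen (Sum.inr j)) ((step a).pt v)
    = ev ((step a).lin (Sum.inr (Sum.inl j))) ((step a).pt v) := by
  show ev ((step a).lin (Sum.inr (Sum.inr ())) + (step a).lin (Sum.inr (Sum.inl j))) _ = _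
  rw [ev_add, ev_D, zero_add]

end

lemma step_below (a : ℕ) (v : (step a).V) :
    (∑ s : Fin a, pos01 (ev ((step a).lin (Sum.inl s)) ((step a).pt v))) +
      ∑ s : Fin a, pos01 (ev ((step a).lin (Sum.inr (Sum.inl s))) ((step a).pt v)) = a := by
  rcases v with i | j
  · exact (congrArg₂ (· + ·)
      (Finset.sum_congr rfl fun s _ => congrArg pos01 (ev_P_inl i s))
      (Finset.sum_congr rfl fun s _ => congrArg pos01 (ev_Q_inl i s))).trans (step_row a i)
  · exact (congrArg₂ (· + ·)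
      (Finset.sum_congr rfl fun s _ => congrArg pos01 (ev_P_inr j s))
      (Finset.sum_congr rfl fun s _ => congrArg pos01 (ev_Q_inr j s))).trans
        ((add_comm _ _).trans (step_row a j))

lemma step_cnt (a : ℕ) (v : (step a).V) : (step a).cnt v = a := by
  have hD : ∑ u : Unit, 1 * pos01 (ev ((step a).lin (Sum.inr (Sum.inr u))) ((step a).pt v)) = 0 :=
    Finset.sum_eq_zero fun u _ => (congrArg (1 * pos01 ·) (ev_D u v)).trans (by simp [pos01_zero])
  have hc : (step a).cnt v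
      = (∑ s : Fin a, 1 * pos01 (ev ((step a).lin (Sum.inl s)) ((step a).pt v))) +
        ((∑ s : Fin a, 1 * pos01 (ev ((step a).lin (Sum.inr (Sum.inl s))) ((step a).pt v))) +
        ∑ u : Unit, 1 * pos01 (ev ((step a).lin (Sum.inr (Sum.inr u))) ((step a).pt v))) :=
    (Fintype.sum_sum_type _).trans (congrArg₂ (· + ·) rfl (Fintype.sum_sum_type _))
  rw [hc, hD]
  simp only [one_mul, add_zero]
  exact step_below a v

lemma step_psi (a : ℕ) (v : (step a).V) : (step a).psi v = a := by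
  have hw : ∀ l, (step a).w l = 0 := by rintro (s | s | e) <;> rfl
  refine Eq.trans ?_ (step_below a v)
  unfold Gad.psi
  simp only [hw, zero_mul, Finset.sum_const_zero, add_zero]
  exact (Fintype.sum_sum_type _).trans (congrArg₂ (· + ·)
    (Finset.sum_congr rfl fun s _ => congrArg pos01 (ev_pen_inl s v))
    (Finset.sum_congr rfl fun s _ => congrArg pos01 (ev_pen_inr s v)))

lemma step_pz (a : ℕ) (u v : (step a).V) (h : u ≠ v) :
    ev ((step a).pen u) ((step a).pt v) ≠ 0 := by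
  rcases u with i | j <;> rcases v with i' | j'
  · intro hh
    have := ((ev_pen_inl i _).trans (ev_P_inl i' i)).symm.trans hh
    exact h (congrArg _ (Fin.ext (Nat.cast_injective (R := ℝ) (by linarith))))
  · intro hh
    have := ((ev_pen_inl i _).trans (ev_P_inr j' i)).symm.trans hh
    exact half_ne a j' i this
  · intro hh
    have := ((ev_pen_inr j _).trans (ev_Q_inl i' j)).symm.trans hh
    exact half_ne a i' j this
  · intro hh
    have := ((ev_pen_inr j _).trans (ev_Q_inr j' j)).symm.trans hh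
    exact h (congrArg _ (Fin.ext (Nat.cast_injective (R := ℝ) (by linarith))))

lemma step_nz (a : ℕ) (v : (step a).V) (l : (step a).Ln) (h1 : l ≠ (step a).la v)
    (h2 : l ≠ (step a).lb v) : ev ((step a).lin l) ((step a).pt v) ≠ 0 := by
  intro hh
  rcases l with s | s | e
  · rcases v with i | j
    · have := (ev_P_inl i s).symm.trans hh
      exact h1 (congrArg Sum.inl (Fin.ext (Nat.cast_injective (R := ℝ) (by linarith))))
    · exact half_ne a j s.val ((ev_P_inr j s).symm.trans hh)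
  · rcases v with i | j
    · exact half_ne a i s.val ((ev_Q_inl i s).symm.trans hh)
    · have := (ev_Q_inr j s).symm.trans hh
      exact h2 (congrArg (fun x => Sum.inr (Sum.inl x))
        (Fin.ext (Nat.cast_injective (R := ℝ) (by linarith))))
  · rcases v with i | j
    · exact absurd rfl h2
    · exact absurd rfl h1

lemma step_ok (a : ℕ) : (step a).Ok where
  za := by
    rintro (i | j)
    · exact (ev_P_inl i i).trans (sub_self _)
    · exact ev_D () _
  zb := by
    rintro (i | j)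
    · exact ev_D () _
    · exact (ev_Q_inr j j).trans (sub_self _)
  ne := by
    rintro (i | j)
    · exact Sum.inl_ne_inr
    · intro h; exact absurd (Sum.inr_injective h) Sum.inr_ne_inl
  cla := by rintro (i | j) <;> rfl
  clb := by rintro (i | j) <;> rfl
  nz := step_nz a
  pz := step_pz a
  det_ne := by rintro (i | j) <;> simp [Gad.det, Gad.lin, step]
  epos := fun _ => by simp [step]
  ppos := by rintro (i | j) <;> simp [Gad.pen, Gad.lin, step]
  cc := fun u v => by rw [step_cnt, step_cnt]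
  pc := fun u v => by rw [step_psi, step_psi]

lemma step_sep (a : ℕ) {H : ℝ} (hH : 0 < H) : (step a).Sep H := by
  intro u v h
  have hp := (step_ok a).pz u v h
  have hD : ∀ v : (step a).V, ev ((step a).lin (Sum.inr (Sum.inr ()))) ((step a).pt v) = 0 :=
    fun v => ev_D () v
  rcases u with i | j
  · have hb : ev ((step a).lin ((step a).lb (Sum.inl i))) ((step a).pt v) = 0 := hD v
    simp only [Gad.pen, ev_add, ev_smul, hb, mul_zero, add_zero] at hp ⊢
    refine ⟨?_, mul_self_pos.mpr hp⟩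
    rw [mul_assoc]; exact mul_pos hH (mul_self_pos.mpr hp)
  · have hb : ev ((step a).lin ((step a).la (Sum.inr j))) ((step a).pt v) = 0 := hD v
    simp only [Gad.pen, ev_add, ev_smul, hb, mul_zero, zero_add] at hp ⊢
    refine ⟨mul_self_pos.mpr hp, ?_⟩
    rw [mul_assoc]; exact mul_pos hH (mul_self_pos.mpr hp)

lemma step_cone (a : ℕ) {H : ℝ} (hH : 1 ≤ H) : (step a).Cone (H + 1) H := by
  have key : ∀ (φ : Aff) (x y : ℝ), φ.1 = x → φ.2.1 = y → 0 < x → 0 < y →
      x ≤ (H + 1) * y → y ≤ (H + 1) * x → InC (H + 1) φ := by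
    intro φ x y hx hy h1 h2 h3 h4
    subst hx hy; exact ⟨h1, h2, h3, h4⟩
  refine ⟨fun _ => key _ 1 1 rfl rfl (by norm_num) (by norm_num) (by linarith) (by linarith), ?_⟩
  rintro (i | j)
  · refine ⟨key _ (H * 1 + 1) (H * 0 + 1) rfl rfl ?_ ?_ ?_ ?_,
      key _ (1 + H * 1) (0 + H * 1) rfl rfl ?_ ?_ ?_ ?_⟩ <;> nlinarith
  · refine ⟨key _ (H * 1 + 0) (H * 1 + 1) rfl rfl ?_ ?_ ?_ ?_,
      key _ (1 + H * 0) (1 + H * 1) rfl rfl ?_ ?_ ?_ ?_⟩ <;> nlinarith

lemma step_NS (a : ℕ) : (step a).NS = a := by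
  show ∑ _s : Fin a, 1 = a
  simp
lemma step_NE (a : ℕ) : (step a).NE = 1 := by
  show ∑ _s : Unit, 1 = 1
  simp
lemma step_WS (a : ℕ) : (step a).WS = 0 := by simp [Gad.WS, step]
lemma step_WE (a : ℕ) : (step a).WE = 0 := by simp [Gad.WE, step]
lemma step_m (a : ℕ) : (step a).m = 2 * a := by
  show Fintype.card (Fin a ⊕ Fin a) = _
  simp; ring

/-- The invariants of the iterated step. -/
structure Block (X : Gad) (d a : ℕ) : Prop where
  ok : X.Ok
  w0 : ∀ l, X.w l = 0
  hNS : X.NS = a ^ d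
  hm : X.m = (2 * a) ^ d
  hNE : X.NE * a ≤ 2 ^ d * a ^ d
  hint : ∀ l, ∃ α β : ℕ, (X.lin l).1 = α ∧ (X.lin l).2.1 = β ∧ α ≤ 2 ^ d ∧ β ≤ 2 ^ d
  hdet : ∀ v, X.det v = 1 ∨ X.det v = -1

lemma exists_block (a d : ℕ) :
    ∀ H : ℝ, 1 < H → ∃ X : Gad, Block X d a ∧ X.Sep H := by
  induction d with
  | zero =>
    intro H _
    refine ⟨Gad.triv, ⟨Gad.triv_ok, ?_, by simp [Gad.triv_NS], by simp [Gad.triv_m],
      by simp [Gad.triv_NE], ?_, ?_⟩, Gad.triv_sep H⟩
    · rintro (s | s | e)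
      · rfl
      · rfl
      · exact e.elim
    · rintro (s | s | e)
      · exact ⟨1, 0, Nat.cast_one.symm, Nat.cast_zero.symm, by simp, by simp⟩
      · exact ⟨0, 1, Nat.cast_zero.symm, Nat.cast_one.symm, by simp, by simp⟩
      · exact e.elim
    · intro v; left; simp [Gad.det, Gad.lin, Gad.triv]
  | succ d ih =>
    intro H hH
    obtain ⟨X, hX, hXs⟩ := ih (H + 1) (by linarith)
    obtain ⟨ε, hε⟩ := Gad.exists_small (by linarith) hH.le hX.ok hXs (step_cone a hH.le)
    have hR := fun g => Gad.lt_rad (G := step a) g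
    have hW : X.W = 0 := Finset.sum_eq_zero fun l _ => hX.w0 l
    have hWS : X.WS = 0 := Finset.sum_eq_zero fun s _ => hX.w0 (Sum.inl s)
    refine ⟨X.comp (step a) ε (step a).rad,
      ⟨Gad.ok_comp hX.ok hR hε (step_ok a), ?_, ?_, ?_, ?_, ?_, ?_⟩,
      Gad.sep_comp hX.ok hR hε (step_ok a) (step_sep a (by linarith))⟩
    · have h1 : ∀ l s, (X.comp (step a) ε (step a).rad).w (X.sub (step a) l s) = 0 := by
        intro l s; rw [Gad.w_sub]; simp [step]
      have h2 : ∀ l, (X.comp (step a) ε (step a).rad).w (X.dum (step a) l) = 0 := by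
        intro l; rw [Gad.w_dum, hX.w0, Nat.zero_mul]
      rintro ((⟨s, t⟩ | s) | (⟨s, t⟩ | s) | ⟨e, t⟩ | e | ⟨u, e⟩)
      · exact h1 (Sum.inl s) t
      · exact h2 (Sum.inl s)
      · exact h1 (Sum.inr (Sum.inl s)) t
      · exact h2 (Sum.inr (Sum.inl s))
      · exact h1 (Sum.inr (Sum.inr e)) t
      · exact h2 (Sum.inr (Sum.inr e))
      · rfl
    · rw [Gad.NS_comp, hX.hNS, hWS, step_NS, Nat.zero_mul, add_zero, pow_succ]
    · rw [Gad.m_comp, hX.hm, step_m, pow_succ]
    · have hn := Gad.n_comp (C := X) (G := step a) (ε := ε) (R := (step a).rad)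
      rw [Gad.n_eq, Gad.n_eq, Gad.NS_comp, hX.hNS, hWS, hW, hX.hm, step_NS, step_NE] at hn
      have hE : (X.comp (step a) ε (step a).rad).NE = X.NE * a + (2 * a) ^ d := by linarith
      rw [hE]
      have := hX.hNE
      calc (X.NE * a + (2 * a) ^ d) * a = (X.NE * a + 2 ^ d * a ^ d) * a := by rw [mul_pow]
        _ ≤ (2 ^ d * a ^ d + 2 ^ d * a ^ d) * a := by gcongr
        _ = 2 ^ (d + 1) * a ^ (d + 1) := by ring
    · have h2d : 2 ^ d ≤ 2 ^ (d + 1) := Nat.pow_le_pow_right (by norm_num) (by omega)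
      have h1 : ∀ l (t : ℝ), ∃ α β : ℕ, (X.lin l + (0, 0, t)).1 = (α : ℝ) ∧
          (X.lin l + (0, 0, t)).2.1 = (β : ℝ) ∧ α ≤ 2 ^ (d + 1) ∧ β ≤ 2 ^ (d + 1) := by
        intro l t
        obtain ⟨α, β, ha, hb, hα, hβ⟩ := hX.hint l
        exact ⟨α, β, by simp [ha], by simp [hb], hα.trans h2d, hβ.trans h2d⟩
      rintro ((⟨s, t⟩ | s) | (⟨s, t⟩ | s) | ⟨e, t⟩ | e | ⟨u, e⟩)
      · rw [show (Sum.inl (Sum.inl (s, t)) : (X.comp (step a) ε (step a).rad).Ln)
          = X.sub (step a) (Sum.inl s) t from rfl, Gad.lin_sub]; exact h1 _ _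
      · rw [show (Sum.inl (Sum.inr s) : (X.comp (step a) ε (step a).rad).Ln)
          = X.dum (step a) (Sum.inl s) from rfl, Gad.lin_dum]; exact h1 _ _
      · rw [show (Sum.inr (Sum.inl (Sum.inl (s, t))) : (X.comp (step a) ε (step a).rad).Ln)
          = X.sub (step a) (Sum.inr (Sum.inl s)) t from rfl, Gad.lin_sub]; exact h1 _ _
      · rw [show (Sum.inr (Sum.inl (Sum.inr s)) : (X.comp (step a) ε (step a).rad).Ln)
          = X.dum (step a) (Sum.inr (Sum.inl s)) from rfl, Gad.lin_dum]; exact h1 _ _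
      · rw [show (Sum.inr (Sum.inr (Sum.inl (e, t))) : (X.comp (step a) ε (step a).rad).Ln)
          = X.sub (step a) (Sum.inr (Sum.inr e)) t from rfl, Gad.lin_sub]; exact h1 _ _
      · rw [show (Sum.inr (Sum.inr (Sum.inr (Sum.inl e))) : (X.comp (step a) ε (step a).rad).Ln)
          = X.dum (step a) (Sum.inr (Sum.inr e)) from rfl, Gad.lin_dum]; exact h1 _ _
      · rw [show (Sum.inr (Sum.inr (Sum.inr (Sum.inr (u, e)))) :
            (X.comp (step a) ε (step a).rad).Ln) = X.newE (step a) u e from rfl, Gad.lin_newE]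
        obtain ⟨α, β, ha, hb, hα, hβ⟩ := hX.hint (X.la u)
        obtain ⟨α', β', ha', hb', hα', hβ'⟩ := hX.hint (X.lb u)
        refine ⟨α + α', β + β', ?_, ?_, by omega, by omega⟩
        · simp [Gad.push, step, ha, ha']
        · simp [Gad.push, step, hb, hb']
    · rintro ⟨v, g⟩
      have : (X.comp (step a) ε (step a).rad).det (v, g) = X.det v * (step a).det g := by
        show ((X.comp (step a) ε (step a).rad).lin (X.gmap (step a) v ((step a).la g))).1 *
            ((X.comp (step a) ε (step a).rad).lin (X.gmap (step a) v ((step a).lb g))).2.1 -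
          ((X.comp (step a) ε (step a).rad).lin (X.gmap (step a) v ((step a).la g))).2.1 *
            ((X.comp (step a) ε (step a).rad).lin (X.gmap (step a) v ((step a).lb g))).1 = _
        simp only [Gad.lin_gmap, Gad.det, Gad.push, Prod.fst_add, Prod.snd_add, Prod.smul_fst,
          Prod.smul_snd, smul_eq_mul]
        ring
      have hg : (step a).det g = 1 := by
        rcases g with i | j <;> simp [Gad.det, Gad.lin, step]
      rw [this, hg, mul_one]; exact hX.hdet v

end Vale.Agent.P065
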